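import Vale.Agent.P270.H766.GB.Sem2
import Vale.Agent.P270.H455.GB.G1
import Vale.Agent.P270.H455.GB.G3
import Vale.Agent.P270.H292.GB.G2
import Vale.Agent.P270.H324.GB.GE

/-!
# SEM2 and GABEFF
-/

namespace Vale.Agent.P270.H766.GB

theorem sem2 : Sem2 := sem2_of Vale.Agent.P270.H455.GB.g1 Vale.Agent.P270.H292.GB.g2
  Vale.Agent.P270.H455.GB.g3

theorem gabEff : GabEff := Vale.Agent.P270.H324.GB.ge sem2

end Vale.Agent.P270.H766.GB
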