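import Vale.Agent.P270.H766.GB.Fin
import Vale.Agent.P270.H766.GB.All1

/-!
# Generalised abundance on projective bundles
-/

open scoped Manifold ContDiff Topology
open Filter

noncomputable section

namespace Vale.Agent.P270.H766.GB

open Vale.Agent.P272.K Vale.Agent.P285.H281.FD Vale.Agent.P285.H766.PB

theorem final {n r : ℕ} {Z : Type} [TopologicalSpace Z] [T2Space Z] [CompactSpace Z]
    [ConnectedSpace Z] [ChartedSpace (Cm n) Z] [IsManifold 𝓘(ℂ, Cm n) ω Z]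
    {X : Type} [TopologicalSpace X] [T2Space X] [CompactSpace X] [ConnectedSpace X]
    [ChartedSpace (Cm (n + r)) X]
    [IsManifold 𝓘(ℂ, Cm (n + r)) ω X] {L : Fin (r + 1) → Bd Z} {N : Bd Z} {π : X → Z} {H : Bd X}
    {t : (j : Fin (r + 1)) → H.ι → (L j).ι → X → ℂ} {m e : ℕ} {s : H.ι × N.ι → X → ℂ}
    {N' : Bd Z} {f : ℕ} (hn : 1 ≤ n) (hr : 1 ≤ r)
    {w : Chart n Z → Cm n → Matrix (Fin n) (Fin n) ℂ} (hw : IsKahler w) (hR : NonposHSC w)
    {w' : Chart (n + r) X → Cm (n + r) → Matrix (Fin (n + r)) (Fin (n + r)) ℂ}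
    (hw' : IsHermitian w')
    (hL : ∀ j, IsLB n (L j)) (hN : IsLB n N)
    (hH : IsLB (n + r) H) (hPB : IsPB n r L π H t) (hm : 1 ≤ m) (he : m * (r + 1) ≤ e)
    (hs : IsSec (n + r) ((H.pow e).mul (pull π N)) s)
    (h0 : ∃ x, NZ ((H.pow e).mul (pull π N)) s x)
    (hk : Klt (n + r) m ((H.pow e).mul (pull π N)) s)
    (hN' : IsLB n N') (hM : Nef w' ((H.pow f).mul (pull π N'))) :
    Nef w' (((Bd.can (n + r) X).pow m).mul (((H.pow e).mul (pull π N)).mul
      (((H.pow f).mul (pull π N')).pow m))) ∧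
    NumSemiample (n + r) (((Bd.can (n + r) X).pow m).mul (((H.pow e).mul (pull π N)).mul
      (((H.pow f).mul (pull π N')).pow m))) ∧
    ((∃ κ : ℕ, 1 ≤ κ ∧ ∃ v, IsSec (n + r) ((((H.pow e).mul (pull π N)).mul
      (((H.pow f).mul (pull π N')).pow m)).pow κ) v ∧ ∃ x, NZ ((((H.pow e).mul (pull π N)).mul
      (((H.pow f).mul (pull π N')).pow m)).pow κ) v x) →
      Semiample (n + r) (((Bd.can (n + r) X).pow m).mul (((H.pow e).mul (pull π N)).mul
        (((H.pow f).mul (pull π N')).pow m)))) := by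
  obtain ⟨h1, h2⟩ := bundle_pairs gabEff hn hr hw hR hw' hL hN hH hPB hm he hs h0 hk hN' hM
  exact ⟨nef_of_num hw' (isLB_mul (isLB_pow isLB_can m) (isLB_mul (isLB_mul (isLB_pow hH e)
    (isLB_pull hPB hN)) (isLB_pow (isLB_mul (isLB_pow hH f) (isLB_pull hPB hN')) m))) h1, h1, h2⟩

end Vale.Agent.P270.H766.GB
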