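import Vale.Agent.P270.H766.GB.Fl2

/-!
# Generalised abundance on the projective bundle, from the rows
-/

open scoped Manifold ContDiff Topology
open Filter

noncomputable section

namespace Vale.Agent.P270.H766.GB

open Vale.Agent.P272.K Vale.Agent.P285.H281.FD Vale.Agent.P285.H766.PB

section
variable {n r : ℕ} {Z : Type} [TopologicalSpace Z] [T2Space Z] [CompactSpace Z] [ConnectedSpace Z]
    [ChartedSpace (Cm n) Z] [IsManifold 𝓘(ℂ, Cm n) ω Z]
    {X : Type} [TopologicalSpace X] [T2Space X] [CompactSpace X] [ConnectedSpace X]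
    [ChartedSpace (Cm (n + r)) X]
    [IsManifold 𝓘(ℂ, Cm (n + r)) ω X] {L : Fin (r + 1) → Bd Z} {N : Bd Z} {π : X → Z} {H : Bd X}
    {t : (j : Fin (r + 1)) → H.ι → (L j).ι → X → ℂ} {m e : ℕ} {s : H.ι × N.ι → X → ℂ}
    {N' : Bd Z} {f : ℕ}

/-- Theorem M for `K_Z + M_0` -/
theorem exists_twist (hn : 1 ≤ n) {w : Chart n Z → Cm n → Matrix (Fin n) (Fin n) ℂ}
    (hw : IsKahler w) (hR : NonposHSC w) {D : Bd Z} (hD : IsLB n D)
    (hnef : Nef w D) : ∃ k : ℕ, 1 ≤ k ∧ ∃ F : Bd Z, IsLB n F ∧ Flat n F ∧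
      ∃ u, IsSec n (((((Bd.can n Z).pow 1).mul D).pow k).mul F) u ∧
        ∃ x, NZ (((((Bd.can n Z).pow 1).mul D).pow k).mul F) u x := by
  have h1 := ((p270 hn hw hD (le_refl 1)).2 (Or.inl hR) 0 1 one_pos
    (nef_mul (isLB_pow isLB_can 0) (isLB_pow hD 1) (nef_pow_zero hw.toIsHermitian _)
      (nef_pow hw.toIsHermitian 1 hnef))).1
  obtain ⟨k, hk, F, hF, hfl, h⟩ := h1
  obtain ⟨u, hu, hx⟩ := h (Classical.arbitrary Z)
  exact ⟨k, hk, F, hF, hfl, u, hu, _, hx⟩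

/-- **Generalised abundance on the projective bundle.** -/
theorem bundle_pairs (hGE : GabEff) (hn : 1 ≤ n) (hr : 1 ≤ r)
    {w : Chart n Z → Cm n → Matrix (Fin n) (Fin n) ℂ} (hw : IsKahler w) (hR : NonposHSC w)
    {w' : Chart (n + r) X → Cm (n + r) → Matrix (Fin (n + r)) (Fin (n + r)) ℂ}
    (hw' : IsHermitian w')
    (hL : ∀ j, IsLB n (L j)) (hN : IsLB n N)
    (hH : IsLB (n + r) H) (hPB : IsPB n r L π H t) (hm : 1 ≤ m) (he : m * (r + 1) ≤ e)
    (hs : IsSec (n + r) ((H.pow e).mul (pull π N)) s)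
    (h0 : ∃ x, NZ ((H.pow e).mul (pull π N)) s x)
    (hk : Klt (n + r) m ((H.pow e).mul (pull π N)) s)
    (hN' : IsLB n N') (hM : Nef w' ((H.pow f).mul (pull π N'))) :
    NumSemiample (n + r) (adM n r π H N N' m e f) ∧
    ((∃ κ : ℕ, 1 ≤ κ ∧ ∃ v, IsSec (n + r) ((((H.pow e).mul (pull π N)).mul
      (((H.pow f).mul (pull π N')).pow m)).pow κ) v ∧ ∃ x, NZ ((((H.pow e).mul (pull π N)).mul
      (((H.pow f).mul (pull π N')).pow m)).pow κ) v x) →
      Semiample (n + r) (adM n r π H N N' m e f)) := by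
  have hadj : Nef w' (adj n r π H N' 0 f) := nef_mul (isLB_pow isLB_can 0)
    (isLB_mul (isLB_pow hH f) (isLB_pull hPB hN')) (nef_pow_zero hw' _) hM
  have hva : ∀ a q, Nef w (va n N' L 0 f a q) := fun a q =>
    Vale.Agent.P285.H303.PB.rowRestrict n r Z X L N' π H t hL hN' hH hPB 0 f (by simp) w
      hw.toIsHermitian w' hw' hadj a q
  have hvaLB : ∀ a q, IsLB n (va n N' L 0 f a q) := fun a q =>
    isLB_mul (isLB_pow isLB_can _) (isLB_monq hN' hL _ _)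
  have hMa : ∀ (F : Bd Z) (k : ℕ), IsLB n F → Flat n F → ∀ a, Nef w (Ma n N' F L f k a) :=
    fun F k hF hfl a => nef_mul (hvaLB a k) hF (hva a k) (nef_of_flat hw.toIsHermitian hfl)
  refine ⟨?_, ?_⟩
  · obtain ⟨k, hk1, F, hF, hfl, u, hu, hu0⟩ := exists_twist hn hw hR (hvaLB 0 1) (hva 0 1)
    have hA₀ : IsLB n (((((Bd.can n Z).pow 1).mul (va n N' L 0 f 0 1)).pow k).mul F) :=
      isLB_mul (isLB_pow (isLB_mul (isLB_pow isLB_can 1) (hvaLB 0 1)) k) hF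
    have R₀ := Rm (Rp (Rm (Rp (Rc (n := n) N N' F L) 1) (Rm (Rp (Rc (n := n) N N' F L) (1 * 0))
      (Rm (Rp (RN' (n := n) N N' F L) 1) (RT (n := n) N N' F L fun j => 1 * vtx r 0 f 0 j)))) k)
      (RF (n := n) N N' F L)
    refine num_of_sa hPB hH hN hN' hF hk1 (fun κ => flat_pow κ (flat_pow m
      (flat_pull hPB hfl))) (sa_adj hGE hn hr hw hR hL hN hH hPB hm he hs h0 hk hN' hF hk1
      (hMa F k hF hfl) (c₀ := k) (k₁ := 0) (m₂ := 1) le_rfl (V := fun j => k * vtx r 0 f 0 j) ?_ hA₀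
      (Rs R₀ (by ring) (by ring) (by ring) (by ring) (fun j => by simp)) hu hu0)
    rw [← Finset.mul_sum, vtx_sum (by simp) 0]
    ring
  · rintro ⟨κ, hκ, v, hv, hv0⟩
    exact eff_case hGE hn hr hw hR hL hN hH hPB hm he hs h0 hk hN' (hMa (one Z) 1 isLB_one flat_one)
      hκ hv hv0

end

end Vale.Agent.P270.H766.GB
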