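import Vale.Agent.P270.H766.GB.XLev2

/-!
# Nefness and flatness of products and powers
-/

open scoped Manifold ContDiff Topology ComplexOrder
open Filter

noncomputable section

namespace Vale.Agent.P270.H766.GB

open Vale.Agent.P272.K Vale.Agent.P285.H281.FD Vale.Agent.P285.H766.PB

section
variable {n : ℕ} {Z : Type} [TopologicalSpace Z] [ChartedSpace (Cm n) Z] {A B : Bd Z}
  {w : Chart n Z → Cm n → Matrix (Fin n) (Fin n) ℂ} {ψ : A.ι → Z → ℝ} {φ : B.ι → Z → ℝ}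

theorem isMet_mul (hA : ∀ i j x, x ∈ A.U i → x ∈ A.U j → A.g i j x ≠ 0)
    (hB : ∀ i j x, x ∈ B.U i → x ∈ B.U j → B.g i j x ≠ 0) (h : IsMet n A ψ) (h' : IsMet n B φ) :
    IsMet n (A.mul B) (fun i x => ψ i.1 x + φ i.2 x) where
  smooth i e x he hx := (h.smooth i.1 e x he hx.1).add (h'.smooth i.2 e x he hx.2)
  change i j x hi hj := by
    have h1 : ‖A.g i.1 j.1 x‖ ^ 2 ≠ 0 := pow_ne_zero 2 (norm_ne_zero_iff.2 (hA _ _ x hi.1 hj.1))
    have h2 : ‖B.g i.2 j.2 x‖ ^ 2 ≠ 0 := pow_ne_zero 2 (norm_ne_zero_iff.2 (hB _ _ x hi.2 hj.2))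
    have h3 : Real.log (‖(A.mul B).g i j x‖ ^ 2) =
        Real.log (‖A.g i.1 j.1 x‖ ^ 2) + Real.log (‖B.g i.2 j.2 x‖ ^ 2) := by
      show Real.log (‖A.g i.1 j.1 x * B.g i.2 j.2 x‖ ^ 2) = _
      rw [norm_mul, mul_pow, Real.log_mul h1 h2]
    rw [h3, h.change i.1 j.1 x hi.1 hj.1, h'.change i.2 j.2 x hi.2 hj.2]
    ring

theorem isMet_pow (h : IsMet n A ψ) (k : ℕ) : IsMet n (A.pow k) (fun i x => (k : ℝ) * ψ i x) where
  smooth i e x he hx := contDiffAt_const.mul (h.smooth i e x he hx)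
  change i j x hi hj := by
    have h3 : Real.log (‖(A.pow k).g i j x‖ ^ 2) = k * Real.log (‖A.g i j x‖ ^ 2) := by
      show Real.log (‖A.g i j x ^ k‖ ^ 2) = _
      rw [norm_pow, ← pow_mul, mul_comm, pow_mul, Real.log_pow]
    have h4 : ψ i x = ψ j x + Real.log (‖A.g i j x‖ ^ 2) := h.change i j x hi hj
    show (k : ℝ) * ψ i x = k * ψ j x + _
    rw [h3, h4]
    ring

theorem hess_mul' (h : IsMet n A ψ) (h' : IsMet n B φ) {i : A.ι × B.ι} {e : Chart n Z} {x : Z}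
    (he : At e x) (hi : x ∈ (A.mul B).U i) :
    cHess (fun z => ψ i.1 (e.symm z) + φ i.2 (e.symm z)) (e x) =
      cHess (fun z => ψ i.1 (e.symm z)) (e x) + cHess (fun z => φ i.2 (e.symm z)) (e x) :=
  cHess_add ((h.smooth i.1 e x he hi.1).of_le (by norm_cast))
    ((h'.smooth i.2 e x he hi.2).of_le (by norm_cast))

theorem hess_pow' (h : IsMet n A ψ) (k : ℕ) {i : A.ι} {e : Chart n Z} {x : Z}
    (he : At e x) (hi : x ∈ A.U i) :
    cHess (fun z => (k : ℝ) * ψ i (e.symm z)) (e x) =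
      (k : ℂ) • cHess (fun z => ψ i (e.symm z)) (e x) := by
  have h1 := cHess_const_mul (k : ℝ) ((h.smooth i e x he hi).of_le (by norm_cast) :
    ContDiffAt ℝ 2 (fun z => ψ i (e.symm z)) (e x))
  rw [h1]
  simp

theorem psd_smul {M : Matrix (Fin n) (Fin n) ℂ} (h : M.PosSemidef) {c : ℝ} (hc : 0 ≤ c) :
    ((c : ℂ) • M).PosSemidef := by
  have : (c : ℂ) • M = c • M := by ext i j; simp
  rw [this]
  exact h.smul hc

theorem w_psd (hw : IsHermitian w) {e : Chart n Z} {x : Z} (he : At e x) {δ : ℝ} (hδ : 0 ≤ δ) :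
    ((δ : ℂ) • w e (e x)).PosSemidef := psd_smul (hw.posDef e x he).posSemidef hδ

theorem nef_mul (hA : IsLB n A) (hB : IsLB n B) (h : Nef w A) (h' : Nef w B) :
    Nef w (A.mul B) := by
  intro δ hδ
  obtain ⟨ψ, hψ, h1⟩ := h (δ / 2) (half_pos hδ)
  obtain ⟨φ, hφ, h2⟩ := h' (δ / 2) (half_pos hδ)
  refine ⟨_, isMet_mul hA.ne_zero hB.ne_zero hψ hφ, fun i e x he hx => ?_⟩
  have h3 := (h1 i.1 e x he hx.1).add (h2 i.2 e x he hx.2)
  have h4 : cHess (fun z => ψ i.1 (e.symm z) + φ i.2 (e.symm z)) (e x) + (δ : ℂ) • w e (e x) =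
      (cHess (fun z => ψ i.1 (e.symm z)) (e x) + ((δ / 2 : ℝ) : ℂ) • w e (e x)) +
      (cHess (fun z => φ i.2 (e.symm z)) (e x) + ((δ / 2 : ℝ) : ℂ) • w e (e x)) := by
    rw [hess_mul' hψ hφ he hx]
    have h5 : (δ : ℂ) • w e (e x) = ((δ / 2 : ℝ) : ℂ) • w e (e x) +
        ((δ / 2 : ℝ) : ℂ) • w e (e x) := by
      rw [← add_smul]
      congr 1
      push_cast
      ring
    rw [h5]
    abel
  rw [h4]
  exact h3

theorem nef_pow_zero (hw : IsHermitian w) (A : Bd Z) : Nef w (A.pow 0) := by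
  intro δ hδ
  refine ⟨fun _ _ => 0, ⟨fun _ _ _ _ _ => contDiffAt_const, fun i j x _ _ => ?_⟩,
    fun i e x he hx => ?_⟩
  · show (0 : ℝ) = 0 + Real.log (‖A.g i j x ^ 0‖ ^ 2)
    simp
  · have h1 : ContDiffAt ℝ 2 (fun _ : Cm n => (0 : ℝ)) (e x) := contDiffAt_const
    have h2 := cHess_const_mul (z := e x) 0 h1
    have h3 : cHess (fun _ : Cm n => (0 : ℝ)) (e x) = 0 := by simpa using h2
    rw [h3, zero_add]
    exact w_psd hw he hδ.le

theorem nef_pow (hw : IsHermitian w) (k : ℕ) (h : Nef w A) : Nef w (A.pow k) := by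
  intro δ hδ
  have hk1 : (0 : ℝ) < k + 1 := by positivity
  obtain ⟨ψ, hψ, h1⟩ := h (δ / (k + 1)) (by positivity)
  refine ⟨_, isMet_pow hψ k, fun i e x he hx => ?_⟩
  have h3 := psd_smul (h1 i e x he hx) (Nat.cast_nonneg k : (0 : ℝ) ≤ k)
  have h4 := w_psd hw he (show (0 : ℝ) ≤ δ / (k + 1) by positivity)
  have h5 : cHess (fun z => (k : ℝ) * ψ i (e.symm z)) (e x) + (δ : ℂ) • w e (e x) =
      (((k : ℝ) : ℂ) • (cHess (fun z => ψ i (e.symm z)) (e x) +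
        ((δ / (k + 1) : ℝ) : ℂ) • w e (e x))) + ((δ / (k + 1) : ℝ) : ℂ) • w e (e x) := by
    rw [hess_pow' hψ k he hx, smul_add, smul_smul, add_assoc, ← add_smul]
    congr 2
    have : ((k : ℂ) + 1) ≠ 0 := by exact_mod_cast hk1.ne'
    push_cast
    field_simp
  rw [h5]
  exact h3.add h4

theorem nef_of_flat (hw : IsHermitian w) (h : Flat n A) : Nef w A := by
  obtain ⟨ψ, hψ, h1⟩ := h
  intro δ hδ
  refine ⟨ψ, hψ, fun i e x he hx => ?_⟩
  rw [h1 i e x he hx, zero_add]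
  exact w_psd hw he hδ.le

theorem flat_pow (k : ℕ) (h : Flat n A) : Flat n (A.pow k) := by
  obtain ⟨ψ, hψ, h1⟩ := h
  refine ⟨_, isMet_pow hψ k, fun i e x he hx => ?_⟩
  have h2 : cHess (fun z => (k : ℝ) * ψ i (e.symm z)) (e x) = _ := hess_pow' hψ k he hx
  rw [h2, h1 i e x he hx, smul_zero]

end

end Vale.Agent.P270.H766.GB
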