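import Vale.Agent.P270.H766.GB.Fl

/-!
# Pull back of flat bundles, numerically semiample bundles are nef
-/

open scoped Manifold ContDiff Topology ComplexOrder
open Filter

noncomputable section

namespace Vale.Agent.P270.H766.GB

open Vale.Agent.P272.K Vale.Agent.P285.H281.FD Vale.Agent.P285.H766.PB
open Vale.Agent.P285.H231.PB (phi_holo ev_open cHess_comp_F)

section
variable {n r : ℕ} {Z : Type} [TopologicalSpace Z] [ChartedSpace (Cm n) Z]
    [IsManifold 𝓘(ℂ, Cm n) ω Z]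
    {X : Type} [TopologicalSpace X] [ChartedSpace (Cm (n + r)) X]
    [IsManifold 𝓘(ℂ, Cm (n + r)) ω X] {L : Fin (r + 1) → Bd Z} {π : X → Z} {H : Bd X}
    {t : (j : Fin (r + 1)) → H.ι → (L j).ι → X → ℂ}

theorem flat_pull (hPB : IsPB n r L π H t) {F : Bd Z} (h : Flat n F) :
    Flat (n + r) (pull π F) := by
  obtain ⟨φ, hφ, hc⟩ := h
  have key : ∀ (i : F.ι) (e : Chart (n + r) X) (x : X), At e x → π x ∈ F.U i →
      ∃ f : Chart n Z, At f (π x) ∧ (fun z => φ i (π (e.symm z))) =ᶠ[𝓝 (e x)]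
        fun z => φ i (f.symm (f (π (e.symm z)))) := by
    intro i e x he hx
    refine ⟨chartAt (Cm n) (π x), at_chart (n := n) (π x), ?_⟩
    have h4 : ∀ᶠ z in 𝓝 (e x), e.symm z ∈ π ⁻¹' (chartAt (Cm n) (π x)).source :=
      ev_open he ((chartAt (Cm n) (π x)).open_source.preimage hPB.holo_pi.continuous)
        (mem_chart_source (Cm n) (π x))
    filter_upwards [h4] with z hz
    rw [(chartAt (Cm n) (π x)).left_inv hz]
  refine ⟨fun i x => φ i (π x), ⟨fun i e x he hx => ?_, fun i j x hi hj =>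
    hφ.change i j (π x) hi hj⟩, fun i e x he hx => ?_⟩
  · obtain ⟨f, hf, h1⟩ := key i e x he hx
    have h2 : ContDiffAt ℝ ∞ (fun z => f (π (e.symm z))) (e x) :=
      ((phi_holo hPB he hf).restrict_scalars ℝ).of_le (by exact_mod_cast le_top)
    have h3 : ContDiffAt ℝ ∞ (fun z => φ i (f.symm (f (π (e.symm z))))) (e x) := by
      refine ContDiffAt.comp (e x) (g := fun z => φ i (f.symm z)) ?_ h2
      rw [e.left_inv he.2]
      exact hφ.smooth i f (π x) hf hx
    exact h3.congr_of_eventuallyEq h1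
  · obtain ⟨f, hf, h1⟩ := key i e x he hx
    show cHess (fun z => φ i (π (e.symm z))) (e x) = 0
    rw [cHess_congr h1]
    have h5 : f (π (e.symm (e x))) = f (π x) := by rw [e.left_inv he.2]
    have h6 := cHess_comp_F (g := fun z => φ i (f.symm z)) (Φ := fun z => f (π (e.symm z)))
      (z := e x) (by
        simp only [h5]
        exact (hφ.smooth i f (π x) hf hx).of_le (by norm_cast)) (phi_holo hPB he hf)
    rw [h6]
    simp only [h5]
    rw [hc i f (π x) hf hx]
    simp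

end

section
variable {n : ℕ} {X : Type} [TopologicalSpace X] [CompactSpace X] [ChartedSpace (Cm n) X]
  [IsManifold 𝓘(ℂ, Cm n) ω X]
  {w : Chart n X → Cm n → Matrix (Fin n) (Fin n) ℂ} {D : Bd X}

omit [CompactSpace X] [IsManifold 𝓘(ℂ, Cm n) ω X] in
theorem g_self (hD : IsLB n D) {i : D.ι} {x : X} (hi : x ∈ D.U i) : D.g i i x = 1 := by
  have h := hD.cocycle i i i x hi hi hi
  exact mul_left_cancel₀ (hD.ne_zero i i x hi hi) (by rw [h, mul_one])

omit [IsManifold 𝓘(ℂ, Cm n) ω X] in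
theorem nef_of_num (hw : IsHermitian w) (hD : IsLB n D) (h : NumSemiample n D) : Nef w D := by
  obtain ⟨k, hk, F, hF, ⟨φ, hφ, hc⟩, hs⟩ := h
  have hk0 : (0 : ℝ) < k := by exact_mod_cast hk
  have hE : IsLB n ((D.pow k).mul F) := isLB_mul (isLB_pow hD k) hF
  have hsa : Semiample n ((D.pow k).mul F) := by
    refine ⟨1, le_rfl, fun x => ?_⟩
    obtain ⟨s, h1, h2⟩ := hs x
    refine ⟨s, ⟨h1.holo, fun i j y hi hj => ?_⟩, h2⟩
    have := h1.change i j y hi hj
    show s i y = (((D.pow k).mul F).g i j y) ^ 1 * s j y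
    rw [pow_one]
    exact this
  have hnef := Vale.Agent.P285.H231.PB.nef_of_semiample hw hE hsa
  choose c hcx using hF.cover
  intro δ hδ
  obtain ⟨ψ, hψ, h1⟩ := hnef (δ * k) (by positivity)
  have hind : ∀ (i : D.ι) (a b : F.ι) (x : X), x ∈ D.U i → x ∈ F.U a → x ∈ F.U b →
      ψ (i, a) x - φ a x = ψ (i, b) x - φ b x := by
    intro i a b x hi ha hb
    have h2 := hψ.change (i, a) (i, b) x ⟨hi, ha⟩ ⟨hi, hb⟩
    have h3 := hφ.change a b x ha hb
    have h4 : ((D.pow k).mul F).g (i, a) (i, b) x = F.g a b x := by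
      show D.g i i x ^ k * F.g a b x = _
      rw [g_self hD hi, one_pow, one_mul]
    rw [h4] at h2
    rw [h2, h3]
    ring
  have hloc : ∀ (i : D.ι) (e : Chart n X) (x : X), At e x → x ∈ D.U i →
      (fun z => (1 / k : ℝ) * (ψ (i, c (e.symm z)) (e.symm z) - φ (c (e.symm z)) (e.symm z)))
        =ᶠ[𝓝 (e x)] fun z => (1 / k : ℝ) * (ψ (i, c x) (e.symm z) - φ (c x) (e.symm z)) := by
    intro i e x he hx
    have h2 : ∀ᶠ z in 𝓝 (e x), e.symm z ∈ D.U i ∩ F.U (c x) :=
      (e.continuousAt_symm he.mem_target).eventually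
        (((hD.isOpen i).inter (hF.isOpen (c x))).mem_nhds
          (by rw [he.left_inv]; exact ⟨hx, hcx x⟩))
    filter_upwards [h2] with z hz
    rw [hind i _ _ _ hz.1 (hcx _) hz.2]
  refine ⟨fun i x => (1 / k : ℝ) * (ψ (i, c x) x - φ (c x) x), ⟨fun i e x he hx => ?_,
    fun i j x hi hj => ?_⟩, fun i e x he hx => ?_⟩
  · exact (contDiffAt_const.mul ((hψ.smooth (i, c x) e x he ⟨hx, hcx x⟩).sub
      (hφ.smooth (c x) e x he (hcx x)))).congr_of_eventuallyEq (hloc i e x he hx)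
  · have h2 := hψ.change (i, c x) (j, c x) x ⟨hi, hcx x⟩ ⟨hj, hcx x⟩
    have h4 : Real.log (‖((D.pow k).mul F).g (i, c x) (j, c x) x‖ ^ 2) =
        k * Real.log (‖D.g i j x‖ ^ 2) := by
      show Real.log (‖D.g i j x ^ k * F.g (c x) (c x) x‖ ^ 2) = _
      rw [g_self hF (hcx x), mul_one, norm_pow, ← pow_mul, mul_comm, pow_mul, Real.log_pow]
    rw [h4] at h2
    show (1 / k : ℝ) * (ψ (i, c x) x - φ (c x) x) = (1 / k : ℝ) * (ψ (j, c x) x - φ (c x) x) + _
    rw [h2]
    field_simp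
    ring
  · have hs1 : ContDiffAt ℝ 2 (fun z => ψ (i, c x) (e.symm z)) (e x) :=
      (hψ.smooth (i, c x) e x he ⟨hx, hcx x⟩).of_le (by norm_cast)
    have hs2 : ContDiffAt ℝ 2 (fun z => φ (c x) (e.symm z)) (e x) :=
      (hφ.smooth (c x) e x he (hcx x)).of_le (by norm_cast)
    show (cHess (fun z => (1 / k : ℝ) * (ψ (i, c (e.symm z)) (e.symm z) -
      φ (c (e.symm z)) (e.symm z))) (e x) + _).PosSemidef
    rw [cHess_congr (hloc i e x he hx)]
    have h2 : (fun z => (1 / k : ℝ) * (ψ (i, c x) (e.symm z) - φ (c x) (e.symm z))) =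
        fun z => (1 / k : ℝ) * (ψ (i, c x) (e.symm z) + (-1 : ℝ) * φ (c x) (e.symm z)) := by
      funext z; ring
    rw [h2, cHess_const_mul (1 / k : ℝ) (hs1.add (contDiffAt_const.mul hs2)),
      cHess_add hs1 (contDiffAt_const.mul hs2), cHess_const_mul (-1 : ℝ) hs2,
      hc (c x) e x he (hcx x), smul_zero, add_zero]
    have h3 := psd_smul (h1 (i, c x) e x he ⟨hx, hcx x⟩) (show (0 : ℝ) ≤ 1 / k by positivity)
    have h4 : ((1 / k : ℝ) : ℂ) • cHess (fun z => ψ (i, c x) (e.symm z)) (e x) +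
        (δ : ℂ) • w e (e x) = ((1 / k : ℝ) : ℂ) •
        (cHess (fun z => ψ (i, c x) (e.symm z)) (e x) + ((δ * k : ℝ) : ℂ) • w e (e x)) := by
      rw [smul_add, smul_smul]
      congr 2
      have : (k : ℂ) ≠ 0 := by exact_mod_cast hk0.ne'
      push_cast
      field_simp
    rw [h4]
    exact h3

end

end Vale.Agent.P270.H766.GB
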