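import Vale.Agent.P285.H281.M.Fin3
import Vale.Agent.P285.H766.PB.Main

/-!
# P270 on projective bundles: the interface
-/

open scoped Manifold ContDiff Topology ComplexConjugate ComplexOrder Matrix
open Filter Set
open Vale.Agent.P272.K Vale.Agent.P285.H281 Vale.Agent.P284.H248 Vale.Agent.P285.TM
open Vale.Agent.P285.H281.M
open Vale.Agent.P272.K.AMP (hess)

noncomputable section

namespace Vale.Agent.P270.H766.GB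

/-! ### the model -/

section
variable {n k ν : ℕ} {σ : Fin n ≃ Fin k ⊕ Fin ν} {Y : Type} [TopologicalSpace Y]
  [ChartedSpace (Cm ν) Y] {Γ : Type} [Group Γ] {D : Dat (Vk k) ν Y Γ} {X : Type}
  [TopologicalSpace X] [ChartedSpace (Cm n) X]
  {χ : Chart n X → Cm n → Matrix (Fin n) (Fin n) ℂ}

/-- the output of NUL for the nef line bundle `L` -/
structure NulD (M : Md σ D χ) (L : LineBundle n X) (ψ : L.ι → X → ℝ)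
    (H : Matrix (Fin k) (Fin k) ℂ) : Prop where
  wt : Wt L ψ
  inv : M.Inv (cv L ψ)
  blk : M.Blk (cv L ψ) H
  psd : H.PosSemidef
  kill : M.Kill (cv L ψ) (ker0 H)
  apx : ∀ δ : ℝ, 0 < δ → ∃ g : X → ℝ, SmoothFn (n := n) g ∧ M.FInv g ∧
    ∀ e x, At e x → (cv L ψ e (e x) + hess g e (e x) + (δ : ℂ) • χ e (e x)).PosSemidef

end

/-- `L₁^{b₁} ⊗ L₂^{b₂}` -/
def lb2 {n : ℕ} {X : Type} [TopologicalSpace X] [ChartedSpace (Cm n) X] (L₁ L₂ : LineBundle n X)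
    (b₁ b₂ : ℕ) : LineBundle n X := mul (pow L₁ b₁) (pow L₂ b₂)

/-- its metric -/
def psi2 {n : ℕ} {X : Type} [TopologicalSpace X] [ChartedSpace (Cm n) X] {L₁ L₂ : LineBundle n X}
    (ψ₁ : L₁.ι → X → ℝ) (ψ₂ : L₂.ι → X → ℝ) (b₁ b₂ : ℕ) : (lb2 L₁ L₂ b₁ b₂).ι → X → ℝ :=
  fun i x => b₁ * ψ₁ i.1 x + b₂ * ψ₂ i.2 x

/-- **G1** (sum of the data of NUL) -/
def G1 : Prop := ∀ (n k ν : ℕ) (σ : Fin n ≃ Fin k ⊕ Fin ν)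
  (Y : Type) [TopologicalSpace Y] [T2Space Y] [ConnectedSpace Y] [ChartedSpace (Cm ν) Y]
  [IsManifold 𝓘(ℂ, Cm ν) ω Y] (Γ : Type) [Group Γ] (D : Dat (Vk k) ν Y Γ)
  (X : Type) [TopologicalSpace X] [T2Space X] [CompactSpace X] [ConnectedSpace X]
  [ChartedSpace (Cm n) X] [IsManifold 𝓘(ℂ, Cm n) ω X]
  (χ : Chart n X → Cm n → Matrix (Fin n) (Fin n) ℂ), IsKahler χ → ∀ (M : Md σ D χ)
  (L₁ L₂ : LineBundle n X) (ψ₁ : L₁.ι → X → ℝ) (ψ₂ : L₂.ι → X → ℝ)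
  (H₁ H₂ : Matrix (Fin k) (Fin k) ℂ), NulD M L₁ ψ₁ H₁ → NulD M L₂ ψ₂ H₂ →
  ∀ b₁ b₂ : ℕ, 1 ≤ b₁ → 1 ≤ b₂ →
    NulD M (lb2 L₁ L₂ b₁ b₂) (psi2 ψ₁ ψ₂ b₁ b₂) ((b₁ : ℂ) • H₁ + (b₂ : ℂ) • H₂) ∧
    ker0 ((b₁ : ℂ) • H₁ + (b₂ : ℂ) • H₂) ≤ ker0 H₁ ∧
    ker0 ((b₁ : ℂ) • H₁ + (b₂ : ℂ) • H₂) ≤ ker0 H₂

/-- **G2** (frames of `L₁^{b₁} ⊗ L₂^{b₂}`, for all `b₁, b₂` over the same sets) -/
def G2 : Prop := ∀ (n k ν : ℕ) (σ : Fin n ≃ Fin k ⊕ Fin ν)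
  (Y : Type) [TopologicalSpace Y] [T2Space Y] [ConnectedSpace Y] [ChartedSpace (Cm ν) Y]
  [IsManifold 𝓘(ℂ, Cm ν) ω Y] (Γ : Type) [Group Γ] (D : Dat (Vk k) ν Y Γ)
  (X : Type) [TopologicalSpace X] [T2Space X] [CompactSpace X] [ConnectedSpace X]
  [ChartedSpace (Cm n) X] [IsManifold 𝓘(ℂ, Cm n) ω X]
  (χ : Chart n X → Cm n → Matrix (Fin n) (Fin n) ℂ) (M : Md σ D χ)
  (L₁ L₂ : LineBundle n X) (N N₁ N₂ : Submodule ℂ (Vk k)) (F₁ : FS M L₁ N₁) (F₂ : FS M L₂ N₂),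
  N ≤ N₁ → N ≤ N₂ →
  ∃ F : (b₁ b₂ : ℕ) → FS M (lb2 L₁ L₂ b₁ b₂) N, (∀ b₁ b₂, (F b₁ b₂).Ψ = psi2 F₁.Ψ F₂.Ψ b₁ b₂) ∧
    (∀ b₁ b₂ y, (F b₁ b₂).W y ⊆ F₁.W y ∩ F₂.W y) ∧
    ∀ b₁ b₂ l, TrN D N l → ∀ y (a : Vk k × Y), a.2 ∈ (F b₁ b₂).W y →
      (F b₁ b₂).rat l y y a = F₁.rat l y y a ^ b₁ * F₂.rat l y y a ^ b₂

/-- **G3** (`Psi` is a metric of `K^a ⊗ L^b`) -/
def G3 : Prop := ∀ (n : ℕ) (X : Type) [TopologicalSpace X] [ChartedSpace (Cm n) X]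
  [IsManifold 𝓘(ℂ, Cm n) ω X] (χ : Chart n X → Cm n → Matrix (Fin n) (Fin n) ℂ), IsKahler χ →
  ∀ (L : LineBundle n X) (ψ : L.ι → X → ℝ), Wt L ψ → ∀ a b : ℕ,
    Wt (mul (pow (can n X) a) (pow L b)) (Psi χ L ψ a b)

/-- **SEM2** -/
def Sem2 : Prop := ∀ (n : ℕ), 1 ≤ n → ∀ (X : Type) [TopologicalSpace X] [T2Space X] [CompactSpace X]
  [ConnectedSpace X] [ChartedSpace (Cm n) X] [IsManifold 𝓘(ℂ, Cm n) ω X]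
  (w : Chart n X → Cm n → Matrix (Fin n) (Fin n) ℂ), IsKahler w → NonposHSC w →
  ∀ L₁ L₂ : LineBundle n X, Nef w L₁ → Nef w L₂ →
  (∃ m, 1 ≤ m ∧ ∃ (s : Sec L₁ m) (x : X), Sec.NZ s x) →
  (∃ c C m, 1 ≤ m ∧ ∃ (s : Sec (mul (pow (can n X) c) (pow (lb2 L₁ L₂ C 1) 1)) m) (x : X),
    Sec.NZ s x) →
  ∀ a b₁ b₂ : ℕ, 1 ≤ a → 1 ≤ b₁ → 1 ≤ b₂ →
    Semiample (mul (pow (can n X) a) (pow (lb2 L₁ L₂ b₁ b₂) 1))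

open Vale.Agent.P285.H281.FD (Bd IsLB IsSec NZ Klt IsMet)

/-- **GABEFF**: klt pairs `(X, (1/m) div s)` and a nef line bundle `L`; some `K^c ⊗ D^C ⊗ L^k` is
effective -/
def GabEff : Prop := ∀ (n : ℕ), 1 ≤ n → ∀ (X : Type) [TopologicalSpace X] [T2Space X]
  [CompactSpace X] [ConnectedSpace X] [ChartedSpace (Cm n) X] [IsManifold 𝓘(ℂ, Cm n) ω X]
  (w : Chart n X → Cm n → Matrix (Fin n) (Fin n) ℂ), IsKahler w → NonposHSC w →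
  ∀ D : Bd X, IsLB n D → ∀ s, IsSec n D s → (∃ x, NZ D s x) → ∀ m : ℕ, 1 ≤ m → Klt n m D s →
  ∀ L : Bd X, IsLB n L → Vale.Agent.P285.H281.FD.Nef w L → ∀ c C k : ℕ, 1 ≤ k →
  ∀ u, IsSec n (((Bd.can n X).pow c).mul ((D.pow C).mul (L.pow k))) u →
  (∃ x, NZ (((Bd.can n X).pow c).mul ((D.pow C).mul (L.pow k))) u x) →
  ∀ x y : ℕ, 1 ≤ x → 1 ≤ y →
    Vale.Agent.P285.H281.FD.Semiample n (((Bd.can n X).pow (x * m)).mul ((D.pow x).mul (L.pow y)))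

/-! ### calculus of line bundles -/

/-- `A` is the bundle `∏ (E j)^(v j)` over the common refinement of the covers -/
structure Re {Z : Type} {J : Type} [Fintype J] (E : J → Bd Z) (A : Bd Z) (v : J → ℕ) where
  f : (∀ j, (E j).ι) → A.ι
  sub : ∀ i z, (∀ j, z ∈ (E j).U (i j)) → z ∈ A.U (f i)
  g : ∀ i i' z, (∀ j, z ∈ (E j).U (i j)) → (∀ j, z ∈ (E j).U (i' j)) →
    A.g (f i) (f i') z = ∏ j, (E j).g (i j) (i' j) z ^ v j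

end Vale.Agent.P270.H766.GB
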