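import Vale.Agent.P270.H766.GB.Iface

/-!
# Sections of `N^{pq} ⊗ L^{qP}` for all `P` in a neighbourhood of the vertices
-/

open scoped Manifold ContDiff Topology ENNReal
open MeasureTheory Filter

noncomputable section

namespace Vale.Agent.P270.H766.GB

open Vale.Agent.P272.K Vale.Agent.P285.H281.FD Vale.Agent.P285.H766.PB

section
variable {n r : ℕ} {Z : Type} [TopologicalSpace Z] [CompactSpace Z] [ConnectedSpace Z]
    [ChartedSpace (Cm n) Z] [IsManifold 𝓘(ℂ, Cm n) ω Z]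
    {X : Type} [TopologicalSpace X] [ChartedSpace (Cm (n + r)) X]
    [IsManifold 𝓘(ℂ, Cm (n + r)) ω X] {L : Fin (r + 1) → Bd Z} {N : Bd Z} {π : X → Z} {H : Bd X}
    {t : (j : Fin (r + 1)) → H.ι → (L j).ι → X → ℂ} {e : ℕ} {s : H.ι × N.ι → X → ℂ}

/-- the target `P` -/
theorem exists_tgt (hr : 1 ≤ r) (hL : ∀ j, IsLB n (L j)) (hN : IsLB n N)
    (hH : IsLB (n + r) H) (hPB : IsPB n r L π H t)
    (hs : IsSec (n + r) ((H.pow e).mul (pull π N)) s)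
    (h0 : ∃ x, NZ ((H.pow e).mul (pull π N)) s x)
    {κ : ℝ} (hκ0 : 0 < κ) (hκ : LocInt (n + r) ((H.pow e).mul (pull π N)) s κ)
    {P : Fin (r + 1) → ℕ} (hP : ∑ j, P j = e) (hκP : ∀ j, 1 ≤ κ * P j) :
    ∃ (q : ℕ) (τ : N.ι × ((j : Fin (r + 1)) → (L j).ι) → Z → ℂ), 1 ≤ q ∧
      IsSec n (monq N L P q) τ ∧ (∃ x, NZ (monq N L P q) τ x) ∧
      LocInt n (monq N L P q) τ (κ / q) := by
  obtain ⟨c, hc, hsc⟩ := Vale.Agent.P285.H776.PB.rowExpand n r hr Z X L N π H t hL hN hH hPB e s hs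
  have hT : TOut n L N c κ := fun z f b i hf hb hi a τ =>
    Vale.Agent.P285.H455.PB.rowTransfer n r Z X L N π H t hL hN hH hPB e s hs c hc hsc κ hκ0 hκ z f
      b i hf hb hi a τ
  have hne : ∃ χ x, NZ (mon N L fun j => (χ.1 j : ℕ)) (c χ) x := by
    by_contra hcon
    push Not at hcon
    obtain ⟨x, hx⟩ := h0
    obtain ⟨h, hh⟩ := hH.cover x
    obtain ⟨b, hb⟩ := hN.cover (π x)
    obtain ⟨i, hi⟩ := (isLB_tens hL).cover (π x)
    refine hx (h, b) ⟨hh, hb⟩ ?_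
    refine (hsc h b i x hh hb hi).trans ?_
    refine Finset.sum_eq_zero fun χ _ => ?_
    have h1 := hcon χ (π x)
    rw [nz_iff (isLB_mon hN hL _) (hc χ) (i := (b, i)) ⟨hb, hi⟩, not_not] at h1
    exact mul_eq_zero_of_left h1 _
  exact exists_klt genFin Vale.Agent.P285.H303.PB.rowChart hN hL hc hne hT hP hκ0 hκP

/-- the target `P / p` -/
theorem exists_pert (hr : 1 ≤ r) (hL : ∀ j, IsLB n (L j)) (hN : IsLB n N)
    (hH : IsLB (n + r) H) (hPB : IsPB n r L π H t)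
    (hs : IsSec (n + r) ((H.pow e).mul (pull π N)) s)
    (h0 : ∃ x, NZ ((H.pow e).mul (pull π N)) s x)
    {κ : ℝ} (hκ0 : 0 < κ) (hκ : LocInt (n + r) ((H.pow e).mul (pull π N)) s κ)
    {p : ℕ} (hp : 1 ≤ p) {P : Fin (r + 1) → ℕ} (hP : ∑ j, P j = e * p)
    (hκP : ∀ j, (p : ℝ) ≤ κ * P j) :
    ∃ (q : ℕ) (τ : N.ι × ((j : Fin (r + 1)) → (L j).ι) → Z → ℂ), 1 ≤ q ∧
      IsSec n (monq (N.pow p) L P q) τ ∧ ∃ x, NZ (monq (N.pow p) L P q) τ x := by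
  have hp0 : (0 : ℝ) < p := by exact_mod_cast hp
  have hNp : IsLB n (N.pow p) := isLB_pow hN p
  have hs' : IsSec (n + r) ((H.pow (e * p)).mul (pull π (N.pow p))) (fun i x => s i x ^ p) := by
    refine ⟨fun i f x hf hi => (hs.holo i f x hf hi).pow p, fun i j x hi hj => ?_⟩
    have h1 : s i x = H.g i.1 j.1 x ^ e * N.g i.2 j.2 (π x) * s j x := hs.change i j x hi hj
    show s i x ^ p = H.g i.1 j.1 x ^ (e * p) * N.g i.2 j.2 (π x) ^ p * s j x ^ p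
    rw [h1, mul_pow, mul_pow, pow_mul]
  have h0' : ∃ x, NZ ((H.pow (e * p)).mul (pull π (N.pow p))) (fun i x => s i x ^ p) x := by
    obtain ⟨x, hx⟩ := h0
    exact ⟨x, fun i hi => pow_ne_zero p (hx i hi)⟩
  have hκ' : LocInt (n + r) ((H.pow (e * p)).mul (pull π (N.pow p))) (fun i x => s i x ^ p)
      (κ / p) := by
    intro i f x hf hi
    obtain ⟨V, hV, hV1⟩ := hκ i f x hf hi
    refine ⟨V, hV, hV1.congr_fun_ae (Filter.Eventually.of_forall fun z => ?_)⟩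
    show ‖s i (f.symm z)‖ ^ (-(2 * κ)) = ‖s i (f.symm z) ^ p‖ ^ (-(2 * (κ / p)))
    rw [norm_pow, ← Real.rpow_natCast, ← Real.rpow_mul (norm_nonneg _)]
    congr 1
    field_simp
  obtain ⟨q, τ, hq, hτ, hτ0, -⟩ := exists_tgt (N := N.pow p) hr hL hNp hH hPB hs' h0'
    (div_pos hκ0 hp0) hκ' hP fun j => by
      rw [div_mul_eq_mul_div, le_div_iff₀ hp0, one_mul]
      exact hκP j
  exact ⟨q, τ, hq, hτ, hτ0⟩

end

end Vale.Agent.P270.H766.GB
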