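import Vale.Agent.P270.H766.GB.Iface

/-!
# Calculus of line bundles over a common refinement
-/

open scoped Manifold ContDiff Topology
open Filter

noncomputable section

namespace Vale.Agent.P270.H766.GB

open Vale.Agent.P272.K Vale.Agent.P285.H281.FD Vale.Agent.P285.H766.PB

namespace Re

section
variable {Z : Type} {J : Type} [Fintype J] {E : J → Bd Z} {A B : Bd Z} {v v' : J → ℕ}

/-- the factors -/
def base [DecidableEq J] (E : J → Bd Z) (j : J) : Re E (E j) (Pi.single j 1) where
  f i := i j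
  sub _ _ h := h j
  g i i' z _ _ := by
    rw [Finset.prod_eq_single j]
    · rw [Pi.single_eq_same, pow_one]
    · intro l _ hl
      rw [Pi.single_eq_of_ne hl, pow_zero]
    · intro h
      exact absurd (Finset.mem_univ _) h

/-- products -/
def mul (R : Re E A v) (R' : Re E B v') : Re E (A.mul B) (v + v') where
  f i := (R.f i, R'.f i)
  sub i z h := ⟨R.sub i z h, R'.sub i z h⟩
  g i i' z h h' := by
    show A.g (R.f i) (R.f i') z * B.g (R'.f i) (R'.f i') z = _
    rw [R.g i i' z h h', R'.g i i' z h h', ← Finset.prod_mul_distrib]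
    exact Finset.prod_congr rfl fun j _ => (pow_add _ _ _).symm

/-- powers -/
def pow (R : Re E A v) (k : ℕ) : Re E (A.pow k) (fun j => k * v j) where
  f := R.f
  sub := R.sub
  g i i' z h h' := by
    show A.g (R.f i) (R.f i') z ^ k = _
    rw [R.g i i' z h h', ← Finset.prod_pow]
    exact Finset.prod_congr rfl fun j _ => by rw [← pow_mul, mul_comm]

/-- equal exponents -/
def cast (R : Re E A v) (h : v = v') : Re E A v' where
  f := R.f
  sub := R.sub
  g := h ▸ R.g

/-- products of powers of some of the factors -/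
def tens [DecidableEq J] {k : ℕ} (e : Fin k → J) (P : Fin k → ℕ) :
    Re E (Vale.Agent.P285.H766.PB.tens fun j => (E (e j)).pow (P j))
      (fun x => ∑ j, if e j = x then P j else 0) where
  f i j := i (e j)
  sub i z h j := h (e j)
  g i i' z _ _ := by
    show ∏ j, (E (e j)).g (i (e j)) (i' (e j)) z ^ P j = _
    have h1 : ∀ x : J, (E x).g (i x) (i' x) z ^ (∑ j, if e j = x then P j else 0) =
        ∏ j : Fin k, if e j = x then (E x).g (i x) (i' x) z ^ P j else 1 := by
      intro x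
      rw [← Finset.prod_pow_eq_pow_sum]
      refine Finset.prod_congr rfl fun j _ => ?_
      split_ifs
      · rfl
      · exact pow_zero _
    rw [Finset.prod_congr rfl fun x _ => h1 x, Finset.prod_comm]
    refine Finset.prod_congr rfl fun j _ => ?_
    rw [Finset.prod_eq_single (e j)]
    · rw [if_pos rfl]
    · intro x _ hx
      rw [if_neg (Ne.symm hx)]
    · intro h
      exact absurd (Finset.mem_univ _) h

end

section
variable {n : ℕ} {Z : Type} [TopologicalSpace Z] [ChartedSpace (Cm n) Z] {J : Type} [Fintype J]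
  {E : J → Bd Z} {A B : Bd Z} {v : J → ℕ}

open Classical in
/-- Sections of `A` are sections of `B`. -/
theorem sec (hE : ∀ j, IsLB n (E j)) (hA : IsLB n A) (hB : IsLB n B) (R : Re E A v)
    (R' : Re E B v) {s : A.ι → Z → ℂ} (hs : IsSec n A s) :
    ∃ s' : B.ι → Z → ℂ, IsSec n B s' ∧ ∀ x, NZ A s x → NZ B s' x := by
  choose i hi using fun (z : Z) (j : J) => (hE j).cover z
  let s' : B.ι → Z → ℂ := fun b z => B.g b (R'.f (i z)) z * s (R.f (i z)) z
  have key : ∀ b z l, z ∈ B.U b → (∀ j, z ∈ (E j).U (l j)) →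
      s' b z = B.g b (R'.f l) z * s (R.f l) z := by
    intro b z l hb hl
    have h1 := R'.sub (i z) z (hi z)
    have h2 := R'.sub l z hl
    have h3 : s (R.f (i z)) z = A.g (R.f (i z)) (R.f l) z * s (R.f l) z :=
      hs.change _ _ z (R.sub (i z) z (hi z)) (R.sub l z hl)
    show B.g b (R'.f (i z)) z * s (R.f (i z)) z = _
    rw [h3, R.g _ _ z (hi z) hl, ← R'.g _ _ z (hi z) hl, ← mul_assoc,
      hB.cocycle _ _ _ z hb h1 h2]
  refine ⟨s', ⟨fun b f x hf hb => ?_, fun b b' z hb hb' => ?_⟩, fun z hz b hb => ?_⟩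
  · have h1 : ∀ᶠ y in 𝓝 (f x), f.symm y ∈ B.U b ∧ ∀ j, f.symm y ∈ (E j).U (i x j) := by
      have hc : ContinuousAt f.symm (f x) := f.continuousAt_symm (f.map_source hf.2)
      have h2 : ∀ᶠ y in 𝓝 (f x), f.symm y ∈ B.U b := by
        refine hc.eventually ?_
        rw [f.left_inv hf.2]
        exact (hB.isOpen b).mem_nhds hb
      have h3 : ∀ j, ∀ᶠ y in 𝓝 (f x), f.symm y ∈ (E j).U (i x j) := by
        intro j
        refine hc.eventually ?_
        rw [f.left_inv hf.2]
        exact ((hE j).isOpen _).mem_nhds (hi x j)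
      exact h2.and (eventually_all.2 h3)
    have h2 : ContDiffAt ℂ ω (fun y => B.g b (R'.f (i x)) (f.symm y) * s (R.f (i x)) (f.symm y))
        (f x) :=
      (hB.holo b _ f x hf hb (R'.sub _ _ (hi x))).mul (hs.holo _ f x hf (R.sub _ _ (hi x)))
    refine h2.congr_of_eventuallyEq ?_
    filter_upwards [h1] with y hy
    exact key b _ _ hy.1 hy.2
  · show B.g b (R'.f (i z)) z * s (R.f (i z)) z =
      B.g b b' z * (B.g b' (R'.f (i z)) z * s (R.f (i z)) z)
    rw [← mul_assoc, hB.cocycle _ _ _ z hb hb' (R'.sub _ _ (hi z))]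
  · exact mul_ne_zero (hB.ne_zero _ _ z hb (R'.sub _ _ (hi z))) (hz _ (R.sub _ _ (hi z)))

theorem semiample (hE : ∀ j, IsLB n (E j)) (hA : IsLB n A) (hB : IsLB n B) (R : Re E A v)
    (R' : Re E B v) (h : Semiample n A) : Semiample n B := by
  obtain ⟨k, hk, h⟩ := h
  refine ⟨k, hk, fun x => ?_⟩
  obtain ⟨s, hs, hx⟩ := h x
  obtain ⟨s', hs', h'⟩ := sec hE (isLB_pow hA k) (isLB_pow hB k) (R.pow k) (R'.pow k) hs
  exact ⟨s', hs', h' x hx⟩

end

end Re

section
variable {n : ℕ} {Z : Type} [TopologicalSpace Z] [ChartedSpace (Cm n) Z]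
  {A B : Bd Z}

theorem secMul {s : A.ι → Z → ℂ} {s' : B.ι → Z → ℂ} (hs : IsSec n A s) (hs' : IsSec n B s') :
    IsSec n (A.mul B) (fun i x => s i.1 x * s' i.2 x) := by
  refine ⟨fun i e x he hi => (hs.holo i.1 e x he hi.1).mul (hs'.holo i.2 e x he hi.2),
    fun i j x hi hj => ?_⟩
  show s i.1 x * s' i.2 x = A.g i.1 j.1 x * B.g i.2 j.2 x * (s j.1 x * s' j.2 x)
  rw [hs.change i.1 j.1 x hi.1 hj.1, hs'.change i.2 j.2 x hi.2 hj.2]
  ring

theorem secPow {s : A.ι → Z → ℂ} (hs : IsSec n A s) (k : ℕ) :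
    IsSec n (A.pow k) (fun i x => s i x ^ k) := by
  refine ⟨fun i e x he hi => (hs.holo i e x he hi).pow k, fun i j x hi hj => ?_⟩
  show s i x ^ k = A.g i j x ^ k * s j x ^ k
  rw [hs.change i j x hi hj, mul_pow]

end

end Vale.Agent.P270.H766.GB
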