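import Vale.Agent.P270.H766.GB.Iface
import Vale.Agent.P285.H716.AB.Fin

/-!
# Two nef line bundles: the character argument
-/

open scoped Manifold ContDiff Topology ComplexConjugate ComplexOrder Matrix
open Filter Set
open Vale.Agent.P272.K Vale.Agent.P285.H281 Vale.Agent.P284.H248 Vale.Agent.P285.TM
open Vale.Agent.P285.H281.M
open Vale.Agent.P285.H591.TM
open Vale.Agent.P272.K.AMP (hess)
open Vale.Agent.P285.H766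

noncomputable section

namespace Vale.Agent.P270.H766.GB

lemma wt_psi2 {n : ℕ} {X : Type} [TopologicalSpace X] [ChartedSpace (Cm n) X]
    {L₁ L₂ : LineBundle n X} {ψ₁ : L₁.ι → X → ℝ} {ψ₂ : L₂.ι → X → ℝ} (h₁ : Wt L₁ ψ₁)
    (h₂ : Wt L₂ ψ₂) (b₁ b₂ : ℕ) : Wt (lb2 L₁ L₂ b₁ b₂) (psi2 ψ₁ ψ₂ b₁ b₂) :=
  Vale.Agent.P285.H716.AB.wt_mul (Vale.Agent.P285.H716.AB.wt_pow h₁ b₁)
    (Vale.Agent.P285.H716.AB.wt_pow h₂ b₂)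

lemma pow_one_aux {x y : ℂ} {m₁ m₂ C b₁ b₂ : ℕ} (h1 : x ^ m₁ = 1) (h2 : (x ^ C * y ^ 1) ^ m₂ = 1) :
    (x ^ b₁ * y ^ b₂) ^ (m₁ * m₂) = 1 := by
  have h3 : y ^ (m₁ * m₂) = 1 := by
    have h4 : (x ^ C * y ^ 1) ^ (m₁ * m₂) = 1 := by rw [mul_comm m₁, pow_mul, h2, one_pow]
    rw [mul_pow, ← pow_mul, pow_one] at h4
    have h5 : x ^ (C * (m₁ * m₂)) = 1 := by
      rw [show C * (m₁ * m₂) = m₁ * (C * m₂) by ring, pow_mul, h1, one_pow]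
    rwa [h5, one_mul] at h4
  rw [mul_pow, ← pow_mul, ← pow_mul, show b₁ * (m₁ * m₂) = m₁ * (b₁ * m₂) by ring, pow_mul, h1,
    one_pow, one_mul, mul_comm b₂, pow_mul, h3, one_pow]

section
variable (n k ν : ℕ) (σ : Fin n ≃ Fin k ⊕ Fin ν)
  (Y : Type) [TopologicalSpace Y] [T2Space Y] [ConnectedSpace Y] [ChartedSpace (Cm ν) Y]
  [IsManifold 𝓘(ℂ, Cm ν) ω Y] (Γ : Type) [Group Γ] (D : Dat (Vk k) ν Y Γ)
  (X : Type) [TopologicalSpace X] [T2Space X] [CompactSpace X] [ConnectedSpace X]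
  [ChartedSpace (Cm n) X] [IsManifold 𝓘(ℂ, Cm n) ω X]
  (χ : Chart n X → Cm n → Matrix (Fin n) (Fin n) ℂ)

/-- the statement on the model -/
theorem sem2_model (hG1 : G1) (hG2 : G2) (hG3 : G3) (hNUL : NULStmt n k ν σ Y Γ D X χ)
    (hPOS : POSStmt n k ν σ Y Γ D X χ)
    (hFRM : FRMStmt n k ν σ Y Γ D X χ) (hDSC : DSCStmt n k ν σ Y Γ D X χ)
    (hUP : UPStmt n k ν σ Y Γ D X χ) (hn : 1 ≤ n) (hχ : IsKahler χ) (M : Md σ D χ)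
    (L₁ L₂ : LineBundle n X) (hL₁ : Nef χ L₁) (hL₂ : Nef χ L₂)
    (heff₁ : ∃ m, 1 ≤ m ∧ ∃ (s : Sec L₁ m) (x : X), Sec.NZ s x)
    (heff₂ : ∃ c C m, 1 ≤ m ∧ ∃ (s : Sec (mul (pow (can n X) c) (pow (lb2 L₁ L₂ C 1) 1)) m) (x : X),
      Sec.NZ s x) (a b₁ b₂ : ℕ) (ha : 1 ≤ a) (hb₁ : 1 ≤ b₁) (hb₂ : 1 ≤ b₂) :
    Semiample (mul (pow (can n X) a) (pow (lb2 L₁ L₂ b₁ b₂) 1)) := by
  obtain ⟨ψ₁, H₁, hW₁, hInv₁, hBlk₁, hH₁, hKill₁, hδ₁⟩ :=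
    hNUL hn hχ M L₁ hL₁
  obtain ⟨ψ₂, H₂, hW₂, hInv₂, hBlk₂, hH₂, hKill₂, hδ₂⟩ :=
    hNUL hn hχ M L₂ hL₂
  have hD₁ : NulD M L₁ ψ₁ H₁ := ⟨hW₁, hInv₁, hBlk₁, hH₁, hKill₁, hδ₁⟩
  have hD₂ : NulD M L₂ ψ₂ H₂ := ⟨hW₂, hInv₂, hBlk₂, hH₂, hKill₂, hδ₂⟩
  obtain ⟨hD, hk1, hk2⟩ := hG1 n _ _ _ _ _ D X χ hχ M L₁ L₂ ψ₁ ψ₂ H₁ H₂ hD₁ hD₂ b₁ b₂ hb₁ hb₂
  set H := (b₁ : ℂ) • H₁ + (b₂ : ℂ) • H₂ with hHdef
  set L := lb2 L₁ L₂ b₁ b₂ with hLdef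
  set ψ := psi2 ψ₁ ψ₂ b₁ b₂ with hψdef
  obtain ⟨g, hg, hgi, hpo⟩ := hPOS hn hχ M L ψ H hD.wt hD.inv hD.blk hD.psd hD.kill hD.apx a 1 ha
    le_rfl
  have hF₁ := hFRM hn hχ M L₁ ψ₁ H₁ hW₁ hInv₁ hBlk₁ hH₁ hKill₁
  choose B₁ τ₁ q₁ hB11 hB12 hB13 hB14 using hF₁
  have hF₂ := hFRM hn hχ M L₂ ψ₂ H₂ hW₂ hInv₂ hBlk₂ hH₂ hKill₂
  choose B₂ τ₂ q₂ hB21 hB22 hB23 hB24 using hF₂
  let F₁ : FS M L₁ (ker0 H₁) :=
    { Ψ := ψ₁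
      B := B₁
      T := τ₁
      Q := q₁
      memB := hB11
      pre := hB12
      frm := hB13
      inv := hB14 }
  let F₂ : FS M L₂ (ker0 H₂) :=
    { Ψ := ψ₂
      B := B₂
      T := τ₂
      Q := q₂
      memB := hB21
      pre := hB22
      frm := hB23
      inv := hB24 }
  obtain ⟨F, hFΨ, hFW, hFrat⟩ := hG2 n _ _ _ _ _ D X χ M L₁ L₂ (ker0 H) _ _ F₁ F₂ hk1 hk2
  have hFΨ' : ∀ b₁ b₂, (F b₁ b₂).Ψ = psi2 ψ₁ ψ₂ b₁ b₂ := hFΨ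
  set FL : FS M L (ker0 H) := F b₁ b₂ with hFL
  have hW : Wt L FL.Ψ := by
    rw [hFΨ' b₁ b₂]
    exact hD.wt
  set E := mul (pow (can n X) a) (pow L 1) with hE
  set FE : FS M E (ker0 H) := FL.mulF hχ a 1 with hFE
  obtain ⟨L', Γ₂, Γ₃, hfin, hL2, hΓ3, hbot, hA1, hmemL, hcomm, hdec, hfree, hproper, hcocpt, -,
    hfull⟩ := exists_split D M.prop
  set S : Spl D :=
    { L := L'
      Γ₂ := Γ₂
      Γ₃ := Γ₃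
      fin := hfin
      L_le := hL2
      Γ₃_le := hΓ3
      A_one := hA1
      mem_L := hmemL
      comm := hcomm
      dec := hdec
      free := hfree
      proper := hproper
      cocpt := hcocpt
      full := hfull } with hS
  obtain ⟨k₁, P, s, hPs, hker, horth, hsP⟩ := exists_quot (ker0 H)
  -- discreteness
  have hdisc : ∀ r : ℝ, {x : Cm k₁ | (∃ l ∈ S.L, P (D.v l) = x) ∧ ‖x‖ ≤ r}.Finite := by
    intro r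
    set sc : Cm k₁ →L[ℂ] Vk k := LinearMap.toContinuousLinearMap s with hsc
    refine ((hDSC hn hχ M L ψ H hD.wt hD.inv hD.blk hD.psd (‖sc‖ * r)).image P).subset ?_
    rintro x ⟨⟨l, hl, rfl⟩, hr⟩
    have h1 := (hmemL l).1 hl
    refine ⟨_, ⟨l, ⟨h1.1, h1.2, ?_⟩, rfl⟩, ?_⟩
    · rw [← hsP]
      exact (sc.le_opNorm _).trans (mul_le_mul_of_nonneg_left hr (norm_nonneg _))
    · show P ((ker0 H)ᗮ.starProjection (D.v l)) = P (D.v l)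
      rw [← hsP, hPs]
  have hΨ : SmW E FE.Ψ := smW_psi hχ hW a 1
  have hpos : ∀ (y : Y) (u : Cm n), wc σ u ∈ FE.B y → ∀ ξ : Cm n, ξ ≠ 0 →
      zc σ ξ ∈ (ker0 H)ᗮ →
      0 < (ξ ⬝ᵥ (cHess (Sys.pot FE g y) u *ᵥ star ξ)).re := by
    intro y u hu ξ hξ hξN
    rw [pot_hess hχ FL hW a 1 hg hu, hFΨ' b₁ b₂]
    exact hpo _ (chart_mem_atlas _ y) u ((FL.frm y).sub hu) ξ hξ hξN
  obtain ⟨m₁, hm₁, s₁, x₁, hs₁⟩ := heff₁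
  obtain ⟨c, C, m₂, hm₂, s₂, x₂, hs₂⟩ := heff₂
  have hm₀ : 1 ≤ m₁ * m₂ := Nat.mul_pos hm₁ hm₂
  -- the character has finite order
  have hθ : ∀ l : (φ S P).ker, (1 : S.Γ₂ →* Circle) l.1 = chr S P FE hker l ^ (m₁ * m₂) := by
    intro l
    have hl := trN_of_ker S P hker l
    have hl₁ : TrN D (ker0 H₁) l.1.1 := ⟨hl.1, hl.2.1, hk1 hl.2.2⟩
    refine Circle.ext ?_
    set y : Y := Classical.arbitrary Y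
    have hy : ((0 : Vk k), y).2 ∈ FE.W y := FE.mem_W y
    have hy' : ((0 : Vk k), y).2 ∈ FL.W y := FL.mem_W y
    have hy₁ : ((0 : Vk k), y).2 ∈ F₁.W y := F₁.mem_W y
    have hyC : ((0 : Vk k), y).2 ∈ (F C 1).W y := (F C 1).mem_W y
    have e1 : F₁.rat l.1.1 y y (0, y) ^ m₁ = 1 :=
      FS.rat_pow_one (F := F₁) (s := s₁) hW₁ hs₁ hl₁ hy₁
    have hWC : Wt (lb2 L₁ L₂ C 1) (F C 1).Ψ := by
      rw [hFΨ' C 1]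
      exact wt_psi2 hW₁ hW₂ C 1
    have hyE : ((0 : Vk k), y).2 ∈ ((F C 1).mulF hχ c 1).W y :=
      ((F C 1).mulF hχ c 1).mem_W y
    have e2 : ((F C 1).mulF hχ c 1).rat l.1.1 y y (0, y) ^ m₂ = 1 :=
      FS.rat_pow_one (F := (F C 1).mulF hχ c 1) (s := s₂)
        (hG3 n X χ hχ (lb2 L₁ L₂ C 1) (F C 1).Ψ hWC c 1) hs₂ hl hyE
    rw [FS.mulF_rat hχ (F C 1) c 1 hl hyC, hFrat C 1 l.1.1 hl y (0, y) hyC, pow_one] at e2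
    rw [Circle.coe_pow, chr_eq S P hker l hy, FS.mulF_rat hχ FL a 1 hl hy', pow_one,
      hFrat b₁ b₂ l.1.1 hl y (0, y) hy']
    rw [pow_one_aux e1 e2]
    rfl
  set Z : Sys S FE :=
    { k₁ := k₁
      P := P
      s := s
      ps := hPs
      ker := hker
      orth := horth
      disc := hdisc
      m₁ := m₁ * m₂
      m₁_pos := hm₀
      θ := 1
      θ_ker := hθ } with hZ
  have hidx : 1 ≤ S.Γ₂.index := Nat.one_le_iff_ne_zero.2 hfin.index_ne_zero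
  obtain ⟨m, hm, hps⟩ := exists_ps Z hΨ hg hgi hpos
  obtain ⟨T, hT, -, ht⟩ := hUP hχ M E S.Γ₂ hfin (Z.m₁ * m) (Z.θ ^ m)
  refine ⟨Z.m₁ * m * S.Γ₂.index, Nat.mul_pos (Nat.mul_pos Z.m₁_pos hm) hidx, fun x => ?_⟩
  obtain ⟨p, rfl⟩ := M.surj x
  obtain ⟨s1, hs1, hs2⟩ := hps ((fun γ => act D γ p) '' T) (hT.image _)
  obtain ⟨t, ht1⟩ := ht (one_pow m) s1 hs1
  exact ⟨t, ht1 p fun γ hγ => hs2 _ ⟨γ, hγ, rfl⟩⟩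

end

/-- **SEM2** from the rows. -/
theorem sem2_of (hG1 : G1) (hG2 : G2) (hG3 : G3) : Sem2 := by
  intro n hn X _ _ _ _ _ _ w hw hR L₁ L₂ hL₁ hL₂ heff₁ heff₂ a b₁ b₂ ha hb₁ hb₂
  obtain ⟨χ, p, K, D, hχ, ⟨M⟩⟩ := exists_md2 hn hw (Or.inl hR)
  exact sem2_model n _ _ _ _ _ D X χ hG1 hG2 hG3 (nulAll _ _ _ _ _ _ _ _ _)
    (posAll _ _ _ _ _ _ _ _ _) (Vale.Agent.P285.H716.TM.frmStmt _ _ _ _ _ _ _ _ _)
    (Vale.Agent.P285.H716.TM.dscStmt _ _ _ _ _ _ _ _ _)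
    (Vale.Agent.P285.H362.upStmt _ _ _ _ _ _ _ _ _) hn hχ M L₁ L₂
    (nef_change hw.toIsHermitian hχ.toIsHermitian hL₁)
    (nef_change hw.toIsHermitian hχ.toIsHermitian hL₂) heff₁ heff₂ a b₁ b₂ ha hb₁ hb₂

end Vale.Agent.P270.H766.GB
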