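import Vale.Agent.P270.H766.GB.Re
import Vale.Agent.P270.H766.GB.Pert

/-!
# The vertices
-/

open scoped Manifold ContDiff Topology
open Filter

noncomputable section

namespace Vale.Agent.P270.H766.GB

open Vale.Agent.P272.K Vale.Agent.P285.H281.FD Vale.Agent.P285.H766.PB

section
variable {n : ℕ} {Z : Type} [TopologicalSpace Z] [ChartedSpace (Cm n) Z]
  {A B : Bd Z}

theorem ev_nz (hA : IsLB n A) {s : A.ι → Z → ℂ} (hs : IsSec n A s) {x : Z} (hx : NZ A s x) :
    ∀ᶠ y in 𝓝 x, NZ A s y := by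
  obtain ⟨i, hi⟩ := hA.cover x
  have hf := at_chart (n := n) x
  set f := chartAt (Cm n) x
  have h1 : ∀ᶠ z in 𝓝 (f x), s i (f.symm z) ≠ 0 := by
    refine (hs.holo i f x hf hi).continuousAt.eventually_ne ?_
    rw [f.left_inv hf.2]
    exact hx i hi
  have h2 : ∀ᶠ y in 𝓝 x, s i (f.symm (f y)) ≠ 0 := (f.continuousAt hf.2).eventually h1
  filter_upwards [h2, (hA.isOpen i).mem_nhds hi, f.open_source.mem_nhds hf.2] with y h3 h4 h5
  rw [f.left_inv h5] at h3
  exact (nz_iff hA hs h4).2 h3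

theorem exists_common [ConnectedSpace Z] (hA : IsLB n A) {s : A.ι → Z → ℂ} (hs : IsSec n A s)
    (hs0 : ∃ x, NZ A s x) (hB : IsLB n B) {t : B.ι → Z → ℂ} (ht : IsSec n B t)
    (ht0 : ∃ x, NZ B t x) : ∃ x, NZ A s x ∧ NZ B t x := by
  obtain ⟨x, hx⟩ := hs0
  obtain ⟨y, h1, h2⟩ := ((freq_nz hB ht ht0 x).and_eventually (ev_nz hA hs hx)).exists
  exact ⟨y, h2, h1⟩

end

/-! ### normal forms -/

section
variable {n r : ℕ} {Z : Type} [TopologicalSpace Z] [ChartedSpace (Cm n) Z]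
  (N N' F : Bd Z) (L : Fin (r + 1) → Bd Z)

/-- the factors -/
def Ev (n : ℕ) {r : ℕ} {Z : Type} [TopologicalSpace Z] [ChartedSpace (Cm n) Z]
    (N N' F : Bd Z) (L : Fin (r + 1) → Bd Z) : Fin 4 ⊕ Fin (r + 1) → Bd Z :=
  Sum.elim ![Bd.can n Z, N, N', F] L

/-- the exponents -/
def ex {r : ℕ} (x y z u : ℕ) (V : Fin (r + 1) → ℕ) : Fin 4 ⊕ Fin (r + 1) → ℕ :=
  Sum.elim ![x, y, z, u] V

theorem isLB_Ev [IsManifold 𝓘(ℂ, Cm n) ω Z] [Nonempty Z] {N N' F : Bd Z}
    {L : Fin (r + 1) → Bd Z} (hN : IsLB n N) (hN' : IsLB n N')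
    (hF : IsLB n F) (hL : ∀ j, IsLB n (L j)) : ∀ j, IsLB n (Ev n N N' F L j) := by
  rintro (j | j)
  · fin_cases j
    · exact isLB_can
    · exact hN
    · exact hN'
    · exact hF
  · exact hL j

theorem ex_add (x y z u x' y' z' u' : ℕ) (V V' : Fin (r + 1) → ℕ) :
    ex x y z u V + ex x' y' z' u' V' = ex (x + x') (y + y') (z + z') (u + u') (V + V') := by
  funext j
  rcases j with j | j
  · fin_cases j <;> rfl
  · rfl

theorem ex_mul (k x y z u : ℕ) (V : Fin (r + 1) → ℕ) :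
    (fun j => k * ex x y z u V j) = ex (k * x) (k * y) (k * z) (k * u) (fun j => k * V j) := by
  funext j
  rcases j with j | j
  · fin_cases j <;> rfl
  · rfl

/-- the canonical bundle -/
def Rc : Re (Ev n N N' F L) (Bd.can n Z) (ex 1 0 0 0 0) :=
  (Re.base (Ev n N N' F L) (Sum.inl 0)).cast (by
    funext j
    rcases j with j | j
    · fin_cases j <;> rfl
    · rfl)

/-- `N` -/
def RN : Re (Ev n N N' F L) N (ex 0 1 0 0 0) :=
  (Re.base (Ev n N N' F L) (Sum.inl 1)).cast (by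
    funext j
    rcases j with j | j
    · fin_cases j <;> rfl
    · rfl)

/-- `N'` -/
def RN' : Re (Ev n N N' F L) N' (ex 0 0 1 0 0) :=
  (Re.base (Ev n N N' F L) (Sum.inl 2)).cast (by
    funext j
    rcases j with j | j
    · fin_cases j <;> rfl
    · rfl)

/-- `F` -/
def RF : Re (Ev n N N' F L) F (ex 0 0 0 1 0) :=
  (Re.base (Ev n N N' F L) (Sum.inl 3)).cast (by
    funext j
    rcases j with j | j
    · fin_cases j <;> rfl
    · rfl)

/-- the product of the powers of the `L j` -/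
def RT (P : Fin (r + 1) → ℕ) : Re (Ev n N N' F L) (tens fun j => (L j).pow (P j)) (ex 0 0 0 0 P) :=
  (Re.tens (E := Ev n N N' F L) (fun j => Sum.inr j) P).cast (by
    funext x
    rcases x with x | x
    · have h1 : (∑ j : Fin (r + 1), if (Sum.inr j : Fin 4 ⊕ Fin (r + 1)) = Sum.inl x then P j
          else 0) = 0 := Finset.sum_eq_zero fun j _ => if_neg (by simp)
      rw [h1]
      fin_cases x <;> rfl
    · have h1 : (∑ j : Fin (r + 1), if (Sum.inr j : Fin 4 ⊕ Fin (r + 1)) = Sum.inr x then P j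
          else 0) = P x := by
        rw [Finset.sum_eq_single x]
        · simp
        · intro j _ hj
          exact if_neg fun h => hj (Sum.inr.inj h)
        · simp
      exact h1)

variable {N N' F L} {A B : Bd Z} {x y z u x' y' z' u' : ℕ} {V V' : Fin (r + 1) → ℕ}

/-- products -/
def Rm (R : Re (Ev n N N' F L) A (ex x y z u V)) (R' : Re (Ev n N N' F L) B (ex x' y' z' u' V')) :
    Re (Ev n N N' F L) (A.mul B) (ex (x + x') (y + y') (z + z') (u + u') (V + V')) :=
  (R.mul R').cast (ex_add ..)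

/-- powers -/
def Rp (R : Re (Ev n N N' F L) A (ex x y z u V)) (k : ℕ) :
    Re (Ev n N N' F L) (A.pow k) (ex (k * x) (k * y) (k * z) (k * u) (fun j => k * V j)) :=
  (R.pow k).cast (ex_mul ..)

/-- equal exponents -/
def Rs (R : Re (Ev n N N' F L) A (ex x y z u V)) (hx : x = x') (hy : y = y') (hz : z = z')
    (hu : u = u') (hV : ∀ j, V j = V' j) : Re (Ev n N N' F L) A (ex x' y' z' u' V') :=
  R.cast (by rw [hx, hy, hz, hu, funext hV])

end

end Vale.Agent.P270.H766.GB
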