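import Vale.Agent.P270.H766.GB.Vtx

/-!
# The vertices: semiampleness
-/

open scoped Manifold ContDiff Topology
open Filter

noncomputable section

namespace Vale.Agent.P270.H766.GB

open Vale.Agent.P272.K Vale.Agent.P285.H281.FD Vale.Agent.P285.H766.PB

/-- `(N'^k ⊗ L_a^{f k}) ⊗ F` -/
def Ma (n : ℕ) {r : ℕ} {Z : Type} [TopologicalSpace Z] [ChartedSpace (Cm n) Z] (N' F : Bd Z)
    (L : Fin (r + 1) → Bd Z) (f k : ℕ) (a : Fin (r + 1)) : Bd Z :=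
  (va n N' L 0 f a k).mul F

/-- `N^k ⊗ (N'^k ⊗ F)^m` -/
def N2 {Z : Type} (N N' F : Bd Z) (m k : ℕ) : Bd Z := (N.pow k).mul (((N'.pow k).mul F).pow m)

section
variable {n r : ℕ} {Z : Type} [TopologicalSpace Z] [ChartedSpace (Cm n) Z]
  {N N' F : Bd Z} {L : Fin (r + 1) → Bd Z}

/-- `Ma` in normal form -/
def RMa (N N' F : Bd Z) (L : Fin (r + 1) → Bd Z) (f k : ℕ) (a : Fin (r + 1)) :
    Re (Ev n N N' F L) (Ma n N' F L f k a) (ex 0 0 k 1 fun j => k * vtx r 0 f a j) :=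
  Rs (Rm (Rm (Rp (Rc N N' F L) (k * 0)) (Rm (Rp (RN' N N' F L) k)
    (RT N N' F L fun j => k * vtx r 0 f a j))) (RF N N' F L)) (by simp) (by simp) (by simp)
    (by simp) (fun j => by simp)

/-- `monq` in normal form -/
def RDa (N N' F : Bd Z) (L : Fin (r + 1) → Bd Z) (P : Fin (r + 1) → ℕ) (q : ℕ) :
    Re (Ev n N N' F L) (monq N L P q) (ex 0 q 0 0 fun j => q * P j) :=
  Rs (Rm (Rp (RN N N' F L) q) (RT N N' F L fun j => q * P j)) (by simp) (by simp) (by simp)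
    (by simp) (fun j => by simp)

/-- `monq (N^p)` in normal form -/
def RDp (N N' F : Bd Z) (L : Fin (r + 1) → Bd Z) (P : Fin (r + 1) → ℕ) (p q : ℕ) :
    Re (Ev n N N' F L) (monq (N.pow p) L P q) (ex 0 (q * p) 0 0 fun j => q * P j) :=
  Rs (Rm (Rp (Rp (RN N N' F L) p) q) (RT N N' F L fun j => q * P j)) (by simp) (by simp) (by simp)
    (by simp) (fun j => by simp)

/-- the target in normal form -/
def Rva (N N' F : Bd Z) (L : Fin (r + 1) → Bd Z) (m k m' e' q : ℕ) (a : Fin (r + 1)) :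
    Re (Ev n N N' F L) (va n (N2 N N' F m k) L m' e' a q)
      (ex (q * m') (q * k) (q * (m * k)) (q * m) fun j => q * vtx r m' e' a j) :=
  Rs (Rm (Rp (Rc N N' F L) (q * m')) (Rm (Rp (Rm (Rp (RN N N' F L) k)
    (Rp (Rm (Rp (RN' N N' F L) k) (RF N N' F L)) m)) q)
    (RT N N' F L fun j => q * vtx r m' e' a j))) (by simp) (by simp) (by simp)
    (by simp) (fun j => by simp)

end

theorem vtx_zero {r f : ℕ} (a j : Fin (r + 1)) : vtx r 0 f a j = if j = a then f else 0 := by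
  unfold vtx
  split_ifs <;> simp

/-- the choice of the constants -/
theorem exists_consts {r m e f k k₁ m₂ q₀ : ℕ} (hm : 1 ≤ m) (he : m * (r + 1) ≤ e) (hq₀ : 1 ≤ q₀)
    {κ : ℝ} (hκ : 1 / (m : ℝ) < κ) {V : Fin (r + 1) → ℕ}
    (hV : ∑ j, V j = e * k₁ + f * k * m₂) (a : Fin (r + 1)) :
    ∃ (C₀ p₁ : ℕ) (P : Fin (r + 1) → ℕ), 1 ≤ p₁ ∧ p₁ + k₁ = C₀ * q₀ ∧
      (∀ j, P j + V j = C₀ * q₀ * vtx r m e a j + k * m₂ * vtx r 0 f a j) ∧
      ∑ j, P j = e * p₁ ∧ ∀ j, (p₁ : ℝ) ≤ κ * P j := by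
  have hm0 : (0 : ℝ) < m := by exact_mod_cast hm
  have hκ0 : 0 < κ := (by positivity : (0 : ℝ) < 1 / m).trans hκ
  have hη : 0 < κ * m - 1 := by
    rw [div_lt_iff₀ hm0] at hκ
    linarith
  set W : ℕ := ∑ j, V j with hW
  obtain ⟨C₁, hC₁⟩ := exists_nat_ge (κ * W / (κ * m - 1))
  set C₀ : ℕ := C₁ + W + k₁ + 1 with hC₀
  have hCq : C₀ ≤ C₀ * q₀ := Nat.le_mul_of_pos_right _ hq₀
  have hVW : ∀ j, V j ≤ W := fun j => Finset.single_le_sum (f := V) (fun _ _ => Nat.zero_le _)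
    (Finset.mem_univ j)
  have hvt : ∀ j, C₀ * q₀ ≤ C₀ * q₀ * vtx r m e a j := fun j =>
    Nat.le_mul_of_pos_right _ (hm.trans (vtx_ge he a j))
  refine ⟨C₀, C₀ * q₀ - k₁, fun j => C₀ * q₀ * vtx r m e a j + k * m₂ * vtx r 0 f a j - V j,
    by omega, by omega, fun j => ?_, ?_, fun j => ?_⟩
  · have h1 := hVW j
    have h2 := hvt j
    show C₀ * q₀ * vtx r m e a j + k * m₂ * vtx r 0 f a j - V j + V j = _
    omega
  · have h0 : ∀ j, (C₀ * q₀ * vtx r m e a j + k * m₂ * vtx r 0 f a j - V j) + V j =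
        C₀ * q₀ * vtx r m e a j + k * m₂ * vtx r 0 f a j := fun j => by
      have h1 := hVW j
      have h2 := hvt j
      omega
    have h1 : ∑ j, (C₀ * q₀ * vtx r m e a j + k * m₂ * vtx r 0 f a j - V j) + ∑ j, V j =
        C₀ * q₀ * e + k * m₂ * f := by
      rw [← Finset.sum_add_distrib, Finset.sum_congr rfl fun j _ => h0 j, Finset.sum_add_distrib,
        ← Finset.mul_sum, ← Finset.mul_sum, vtx_sum he a, vtx_sum (by simp) a]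
    rw [← hW, hV] at h1
    have h2 : e * (C₀ * q₀ - k₁) + e * k₁ = C₀ * q₀ * e := by
      rw [← mul_add, Nat.sub_add_cancel (by omega), mul_comm]
    have h3 : k * m₂ * f = f * k * m₂ := by ring
    show ∑ j, (C₀ * q₀ * vtx r m e a j + k * m₂ * vtx r 0 f a j - V j) = e * (C₀ * q₀ - k₁)
    omega
  · have h1 := hVW j
    have h2 := hvt j
    have h3 : m ≤ vtx r m e a j := vtx_ge he a j
    have h4 : C₀ * q₀ * m ≤ C₀ * q₀ * vtx r m e a j := Nat.mul_le_mul_left _ h3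
    have h5 : C₀ * q₀ * m ≤ (C₀ * q₀ * vtx r m e a j + k * m₂ * vtx r 0 f a j - V j) + W := by
      omega
    have h6 : ((C₀ * q₀ * m : ℕ) : ℝ) ≤
        ((C₀ * q₀ * vtx r m e a j + k * m₂ * vtx r 0 f a j - V j : ℕ) : ℝ) + W := by
      exact_mod_cast h5
    have h7 : κ * W ≤ C₁ * (κ * m - 1) := by rwa [div_le_iff₀ hη] at hC₁
    have h8 : (C₁ : ℝ) ≤ ((C₀ * q₀ : ℕ) : ℝ) := by
      have : C₁ ≤ C₀ * q₀ := by omega
      exact_mod_cast this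
    have h9 : (((C₀ * q₀ - k₁ : ℕ)) : ℝ) ≤ ((C₀ * q₀ : ℕ) : ℝ) := by
      exact_mod_cast Nat.sub_le _ _
    have h10 : ((C₀ * q₀ * m : ℕ) : ℝ) = ((C₀ * q₀ : ℕ) : ℝ) * m := by push_cast; ring
    rw [h10] at h6
    show (((C₀ * q₀ - k₁ : ℕ)) : ℝ) ≤ κ *
      ((C₀ * q₀ * vtx r m e a j + k * m₂ * vtx r 0 f a j - V j : ℕ) : ℝ)
    set T : ℝ := ((C₀ * q₀ : ℕ) : ℝ)
    set Q : ℝ := ((C₀ * q₀ * vtx r m e a j + k * m₂ * vtx r 0 f a j - V j : ℕ) : ℝ)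
    have h11 : κ * (T * m) ≤ κ * (Q + W) := mul_le_mul_of_nonneg_left h6 hκ0.le
    have h12 : C₁ * (κ * m - 1) ≤ T * (κ * m - 1) := mul_le_mul_of_nonneg_right h8 hη.le
    nlinarith

section
variable {n r : ℕ} {Z : Type} [TopologicalSpace Z] [T2Space Z] [CompactSpace Z] [ConnectedSpace Z]
    [ChartedSpace (Cm n) Z] [IsManifold 𝓘(ℂ, Cm n) ω Z]
    {X : Type} [TopologicalSpace X] [ChartedSpace (Cm (n + r)) X]
    [IsManifold 𝓘(ℂ, Cm (n + r)) ω X] {L : Fin (r + 1) → Bd Z} {N : Bd Z} {π : X → Z} {H : Bd X}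
    {t : (j : Fin (r + 1)) → H.ι → (L j).ι → X → ℂ} {m e : ℕ} {s : H.ι × N.ι → X → ℂ}

/-- semiampleness at the vertices -/
theorem vertex (hGE : GabEff) (hn : 1 ≤ n) (hr : 1 ≤ r)
    {w : Chart n Z → Cm n → Matrix (Fin n) (Fin n) ℂ} (hw : IsKahler w) (hR : NonposHSC w)
    (hL : ∀ j, IsLB n (L j)) (hN : IsLB n N)
    (hH : IsLB (n + r) H) (hPB : IsPB n r L π H t) (hm : 1 ≤ m) (he : m * (r + 1) ≤ e)
    (hs : IsSec (n + r) ((H.pow e).mul (pull π N)) s)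
    (h0 : ∃ x, NZ ((H.pow e).mul (pull π N)) s x)
    (hk : Klt (n + r) m ((H.pow e).mul (pull π N)) s)
    {N' F : Bd Z} (hN' : IsLB n N') (hF : IsLB n F) {f k : ℕ} (hk1 : 1 ≤ k)
    (hM : ∀ a, Nef w (Ma n N' F L f k a)) {c₀ k₁ m₂ : ℕ} (hm₂ : 1 ≤ m₂) {V : Fin (r + 1) → ℕ}
    (hV : ∑ j, V j = e * k₁ + f * k * m₂) {A₀ : Bd Z} (hA₀ : IsLB n A₀)
    (R₀ : Re (Ev n N N' F L) A₀ (ex c₀ k₁ (k * m₂) m₂ V)) {u₀ : A₀.ι → Z → ℂ}
    (hu₀ : IsSec n A₀ u₀) (hu₀0 : ∃ x, NZ A₀ u₀ x) (a : Fin (r + 1)) :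
    ∃ q, 1 ≤ q ∧ Semiample n (va n (N2 N N' F m k) L (m * k) (e * k + m * (f * k)) a q) := by
  have hE := isLB_Ev (n := n) hN hN' hF hL
  obtain ⟨κ, hκm, hκ⟩ := hk
  have hm0 : (0 : ℝ) < m := by exact_mod_cast hm
  have hκ0 : 0 < κ := (by positivity : (0 : ℝ) < 1 / m).trans hκm
  have hκ1 : 1 < κ * m := by
    rw [div_lt_iff₀ hm0] at hκm
    exact hκm
  -- the klt pair at the vertex
  obtain ⟨q₀, τ, hq₀, hτ, hτ0, hτi⟩ := exists_tgt hr hL hN hH hPB hs h0 hκ0 hκ (vtx_sum he a)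
    fun j => by
      have h1 : (m : ℝ) ≤ (vtx r m e a j : ℕ) := by exact_mod_cast vtx_ge he a j
      have h3 : κ * m ≤ κ * (vtx r m e a j : ℕ) := mul_le_mul_of_nonneg_left h1 hκ0.le
      linarith
  have hq00 : (0 : ℝ) < q₀ := by exact_mod_cast hq₀
  have hτk : Klt n (q₀ * m) (monq N L (vtx r m e a) q₀) τ := by
    refine ⟨κ / q₀, ?_, hτi⟩
    push_cast
    rw [div_lt_div_iff₀ (by positivity) hq00]
    nlinarith
  -- the perturbed target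
  obtain ⟨C₀, p₁, P, hp₁, hpC, hPV, hPs, hPκ⟩ := exists_consts (q₀ := q₀) hm he hq₀ hκm hV a
  obtain ⟨q₁, τ', hq₁, hτ', hτ'0⟩ := exists_pert hr hL hN hH hPB hs h0 hκ0 hκ hp₁ hPs hPκ
  have hDp : IsLB n (monq (N.pow p₁) L P q₁) := isLB_monq (isLB_pow hN p₁) hL P q₁
  have hDa : IsLB n (monq N L (vtx r m e a) q₀) := isLB_monq hN hL _ _
  have hva : ∀ (N : Bd Z), IsLB n N → ∀ m e q, IsLB n (va n N L m e a q) := fun N hN m e q =>
    isLB_mul (isLB_pow isLB_can _) (isLB_monq hN hL _ _)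
  have hMa : IsLB n (Ma n N' F L f k a) := isLB_mul (hva N' hN' _ _ _) hF
  obtain ⟨x, hx1, hx2⟩ := exists_common hDp hτ' hτ'0 hA₀ hu₀ hu₀0
  have hsec := secMul hτ' (secPow hu₀ q₁)
  have hA₁ : IsLB n ((monq (N.pow p₁) L P q₁).mul (A₀.pow q₁)) := isLB_mul hDp (isLB_pow hA₀ q₁)
  have hA₂ : IsLB n (((Bd.can n Z).pow (q₁ * c₀)).mul
      (((monq N L (vtx r m e a) q₀).pow (q₁ * C₀)).mul ((Ma n N' F L f k a).pow (q₁ * m₂)))) :=
    isLB_mul (isLB_pow isLB_can _) (isLB_mul (isLB_pow hDa _) (isLB_pow hMa _))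
  have R₁ := Rm (RDp N N' F L P p₁ q₁) (Rp R₀ q₁)
  have R₂ := Rm (Rp (Rc (n := n) N N' F L) (q₁ * c₀))
    (Rm (Rp (RDa (n := n) N N' F L (vtx r m e a) q₀) (q₁ * C₀))
      (Rp (RMa (n := n) N N' F L f k a) (q₁ * m₂)))
  have R₃ := Rs R₁ (x' := q₁ * c₀ * 1 + (q₁ * C₀ * 0 + q₁ * m₂ * 0))
    (y' := q₁ * c₀ * 0 + (q₁ * C₀ * q₀ + q₁ * m₂ * 0))
    (z' := q₁ * c₀ * 0 + (q₁ * C₀ * 0 + q₁ * m₂ * k))
    (u' := q₁ * c₀ * 0 + (q₁ * C₀ * 0 + q₁ * m₂ * 1))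
    (V' := (fun j => q₁ * c₀ * (0 : Fin (r + 1) → ℕ) j) +
      ((fun j => q₁ * C₀ * (q₀ * vtx r m e a j)) + fun j => q₁ * m₂ * (k * vtx r 0 f a j)))
    (by ring) (by
      have : q₁ * p₁ + q₁ * k₁ = q₁ * (C₀ * q₀) := by rw [← mul_add, hpC]
      rw [this]
      ring) (by ring) (by ring) (fun j => by
      show q₁ * P j + q₁ * V j = q₁ * c₀ * 0 + (q₁ * C₀ * (q₀ * vtx r m e a j) +
        q₁ * m₂ * (k * vtx r 0 f a j))
      rw [← mul_add, hPV j]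
      ring)
  obtain ⟨u, hu, hux⟩ := Re.sec hE hA₁ hA₂ R₃ R₂ hsec
  have hu0 : ∃ x, NZ (((Bd.can n Z).pow (q₁ * c₀)).mul
      (((monq N L (vtx r m e a) q₀).pow (q₁ * C₀)).mul ((Ma n N' F L f k a).pow (q₁ * m₂)))) u x :=
    ⟨x, hux x fun i hi => mul_ne_zero (hx1 _ hi.1) (pow_ne_zero q₁ (hx2 _ hi.2))⟩
  have hS := hGE n hn Z w hw hR _ hDa τ hτ hτ0 (q₀ * m) (Nat.mul_pos hq₀ hm) hτk _ hMa (hM a)
    (q₁ * c₀) (q₁ * C₀) (q₁ * m₂) (Nat.mul_pos hq₁ hm₂) u hu hu0 k (q₀ * m) hk1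
    (Nat.mul_pos hq₀ hm)
  refine ⟨q₀, hq₀, ?_⟩
  have hN2 : IsLB n (N2 N N' F m k) :=
    isLB_mul (isLB_pow hN k) (isLB_pow (isLB_mul (isLB_pow hN' k) hF) m)
  have hA₃ : IsLB n (((Bd.can n Z).pow (k * (q₀ * m))).mul
      (((monq N L (vtx r m e a) q₀).pow k).mul ((Ma n N' F L f k a).pow (q₀ * m)))) :=
    isLB_mul (isLB_pow isLB_can _) (isLB_mul (isLB_pow hDa _) (isLB_pow hMa _))
  have R₄ := Rm (Rp (Rc (n := n) N N' F L) (k * (q₀ * m)))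
    (Rm (Rp (RDa (n := n) N N' F L (vtx r m e a) q₀) k)
      (Rp (RMa (n := n) N N' F L f k a) (q₀ * m)))
  have R₅ := Rva (n := n) N N' F L m k (m * k) (e * k + m * (f * k)) q₀ a
  refine Re.semiample hE hA₃ (hva _ hN2 _ _ _) R₄ (Rs R₅ (by ring) (by ring) (by ring) (by ring)
    fun j => ?_) hS
  show q₀ * vtx r (m * k) (e * k + m * (f * k)) a j = k * (q₀ * m) * 0 +
    (k * (q₀ * vtx r m e a j) + q₀ * m * (k * vtx r 0 f a j))
  have hmr : m * r ≤ e := le_trans (Nat.mul_le_mul_left m (Nat.le_succ r)) he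
  unfold vtx
  split_ifs
  · obtain ⟨d, rfl⟩ := Nat.exists_eq_add_of_le hmr
    have h1 : (m * r + d) * k + m * (f * k) - m * k * r = d * k + m * (f * k) := by
      have : (m * r + d) * k + m * (f * k) = m * k * r + (d * k + m * (f * k)) := by ring
      rw [this, Nat.add_sub_cancel_left]
    rw [h1, Nat.add_sub_cancel_left]
    simp only [zero_mul, Nat.sub_zero]
    ring
  · ring

end

end Vale.Agent.P270.H766.GB
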