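import Vale.Agent.P270.H766.GB.Vtx2

/-!
# From the vertices to the projective bundle
-/

open scoped Manifold ContDiff Topology
open Filter

noncomputable section

namespace Vale.Agent.P270.H766.GB

open Vale.Agent.P272.K Vale.Agent.P285.H281.FD Vale.Agent.P285.H766.PB

/-- the trivial bundle -/
def one (Z : Type) : Bd Z where
  ι := Unit
  U _ := Set.univ
  g _ _ _ := 1

/-- `K_X + B + M`, multiplied by `m` -/
def adM (n r : ℕ) {X Z : Type} [TopologicalSpace X] [ChartedSpace (Cm (n + r)) X] (π : X → Z)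
    (H : Bd X) (N N' : Bd Z) (m e f : ℕ) : Bd X :=
  ((Bd.can (n + r) X).pow m).mul (((H.pow e).mul (pull π N)).mul
    (((H.pow f).mul (pull π N')).pow m))

/-! ### normal forms on `X` -/

section
variable {n r : ℕ} {Z X : Type} [TopologicalSpace X] [ChartedSpace (Cm (n + r)) X]
  (π : X → Z) (H : Bd X) (N N' F : Bd Z)

/-- the factors on `X` -/
def Ex5 (n r : ℕ) {Z X : Type} [TopologicalSpace X] [ChartedSpace (Cm (n + r)) X]
    (π : X → Z) (H : Bd X) (N N' F : Bd Z) : Fin 5 → Bd X :=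
  ![Bd.can (n + r) X, H, pull π N, pull π N', pull π F]

theorem v5_add (a b c d e a' b' c' d' e' : ℕ) : (![a, b, c, d, e] : Fin 5 → ℕ) +
    ![a', b', c', d', e'] = ![a + a', b + b', c + c', d + d', e + e'] := by
  funext j
  fin_cases j <;> rfl

theorem v5_mul (k a b c d e : ℕ) : (fun j => k * (![a, b, c, d, e] : Fin 5 → ℕ) j) =
    ![k * a, k * b, k * c, k * d, k * e] := by
  funext j
  fin_cases j <;> rfl

/-- the canonical bundle -/
def Xc : Re (Ex5 n r π H N N' F) (Bd.can (n + r) X) ![1, 0, 0, 0, 0] :=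
  (Re.base (Ex5 n r π H N N' F) 0).cast (by funext j; fin_cases j <;> rfl)

/-- `H` -/
def XH : Re (Ex5 n r π H N N' F) H ![0, 1, 0, 0, 0] :=
  (Re.base (Ex5 n r π H N N' F) 1).cast (by funext j; fin_cases j <;> rfl)

/-- `π^*N` -/
def XN : Re (Ex5 n r π H N N' F) (pull π N) ![0, 0, 1, 0, 0] :=
  (Re.base (Ex5 n r π H N N' F) 2).cast (by funext j; fin_cases j <;> rfl)

/-- `π^*N'` -/
def XN' : Re (Ex5 n r π H N N' F) (pull π N') ![0, 0, 0, 1, 0] :=
  (Re.base (Ex5 n r π H N N' F) 3).cast (by funext j; fin_cases j <;> rfl)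

/-- `π^*F` -/
def XF : Re (Ex5 n r π H N N' F) (pull π F) ![0, 0, 0, 0, 1] :=
  (Re.base (Ex5 n r π H N N' F) 4).cast (by funext j; fin_cases j <;> rfl)

variable {π H N N' F} {A B : Bd X} {a b c d e a' b' c' d' e' : ℕ}

/-- products -/
def Xm (R : Re (Ex5 n r π H N N' F) A ![a, b, c, d, e])
    (R' : Re (Ex5 n r π H N N' F) B ![a', b', c', d', e']) :
    Re (Ex5 n r π H N N' F) (A.mul B) ![a + a', b + b', c + c', d + d', e + e'] :=
  (R.mul R').cast (v5_add ..)

/-- powers -/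
def Xp (R : Re (Ex5 n r π H N N' F) A ![a, b, c, d, e]) (k : ℕ) :
    Re (Ex5 n r π H N N' F) (A.pow k) ![k * a, k * b, k * c, k * d, k * e] :=
  (R.pow k).cast (v5_mul ..)

/-- equal exponents -/
def Xs (R : Re (Ex5 n r π H N N' F) A ![a, b, c, d, e]) (ha : a = a') (hb : b = b') (hc : c = c')
    (hd : d = d') (he : e = e') : Re (Ex5 n r π H N N' F) A ![a', b', c', d', e'] :=
  R.cast (by rw [ha, hb, hc, hd, he])

variable (π H N N' F) in
/-- `adj` in normal form -/
def Xadj (m k m' e' : ℕ) : Re (Ex5 n r π H N N' F) (adj n r π H (N2 N N' F m k) m' e')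
    ![m', e', k, m * k, m] :=
  Xs (Xm (Xp (Xc (n := n) (r := r) π H N N' F) m') (Xm (Xp (XH (n := n) (r := r) π H N N' F) e')
    (Xm (Xp (XN (n := n) (r := r) π H N N' F) k)
      (Xp (Xm (Xp (XN' (n := n) (r := r) π H N N' F) k)
        (XF (n := n) (r := r) π H N N' F)) m)))) (by simp) (by simp) (by simp) (by simp) (by simp)

variable (π H N N' F) in
/-- `adM` in normal form -/
def XadM (m e f : ℕ) : Re (Ex5 n r π H N N' F) (adM n r π H N N' m e f) ![m, e + m * f, 1, m, 0] :=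
  Xs (Xm (Xp (Xc (n := n) (r := r) π H N N' F) m)
    (Xm (Xm (Xp (XH (n := n) (r := r) π H N N' F) e) (XN (n := n) (r := r) π H N N' F))
      (Xp (Xm (Xp (XH (n := n) (r := r) π H N N' F) f)
        (XN' (n := n) (r := r) π H N N' F)) m))) (by simp) (by simp) (by simp) (by simp) (by simp)

/-- a trivial factor -/
def Xone {A : Bd X} {a b c d e : ℕ} (R : Re (Ex5 n r π H N N' (one Z)) A ![a, b, c, d, e])
    (e' : ℕ) : Re (Ex5 n r π H N N' (one Z)) A ![a, b, c, d, e'] where
  f := R.f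
  sub := R.sub
  g i i' z h h' := by
    rw [R.g i i' z h h', Fin.prod_univ_castSucc, Fin.prod_univ_castSucc (n := 4)]
    have h1 : ∀ l : ℕ, (Ex5 n r π H N N' (one Z) (Fin.last 4)).g (i (Fin.last 4))
        (i' (Fin.last 4)) z ^ l = 1 := fun l => one_pow l
    rw [h1, h1]
    refine congrArg (· * 1) (Finset.prod_congr rfl fun j _ => ?_)
    fin_cases j <;> rfl

end

end Vale.Agent.P270.H766.GB
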