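import Vale.Agent.P270.H766.GB.XLev
import Vale.Agent.P285.H303.PB.Restrict2

/-!
# The theorem on the projective bundle
-/

open scoped Manifold ContDiff Topology
open Filter

noncomputable section

namespace Vale.Agent.P270.H766.GB

open Vale.Agent.P272.K Vale.Agent.P285.H281.FD Vale.Agent.P285.H766.PB

section
variable {n : ℕ} {Z : Type} [TopologicalSpace Z] [ChartedSpace (Cm n) Z]

theorem isLB_one : IsLB n (one Z) where
  isOpen _ := isOpen_univ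
  cover _ := ⟨(), trivial⟩
  holo _ _ _ _ _ _ _ := contDiffAt_const
  ne_zero _ _ _ _ _ := one_ne_zero
  cocycle _ _ _ _ _ _ _ := one_mul 1

theorem sec_one (k : ℕ) : IsSec n ((one Z).pow k) (fun _ _ => 1) := by
  refine ⟨fun _ _ _ _ _ => contDiffAt_const, fun i j x hi hj => ?_⟩
  show (1 : ℂ) = 1 ^ k * 1
  rw [one_pow, one_mul]

theorem flat_one : Flat n (one Z) := by
  refine ⟨fun _ _ => 0, ⟨fun _ _ _ _ _ => contDiffAt_const, fun i j x _ _ => ?_⟩,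
    fun i e x he hx => ?_⟩
  · show (0 : ℝ) = 0 + Real.log (‖(1 : ℂ)‖ ^ 2)
    simp
  · have h1 : ContDiffAt ℝ 2 (fun _ : Cm n => (0 : ℝ)) (e x) := contDiffAt_const
    have h2 := cHess_const_mul (z := e x) 0 h1
    simpa using h2

end

section
variable {n r : ℕ} {Z : Type} [TopologicalSpace Z] [T2Space Z] [CompactSpace Z] [ConnectedSpace Z]
    [ChartedSpace (Cm n) Z] [IsManifold 𝓘(ℂ, Cm n) ω Z]
    {X : Type} [TopologicalSpace X] [T2Space X] [CompactSpace X] [ConnectedSpace X]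
    [ChartedSpace (Cm (n + r)) X]
    [IsManifold 𝓘(ℂ, Cm (n + r)) ω X] {L : Fin (r + 1) → Bd Z} {N : Bd Z} {π : X → Z} {H : Bd X}
    {t : (j : Fin (r + 1)) → H.ι → (L j).ι → X → ℂ} {m e : ℕ} {s : H.ι × N.ι → X → ℂ}
    {N' F : Bd Z} {f k : ℕ}

theorem isLB_Ex5 (hPB : IsPB n r L π H t) (hH : IsLB (n + r) H) (hN : IsLB n N) (hN' : IsLB n N')
    (hF : IsLB n F) : ∀ j, IsLB (n + r) (Ex5 n r π H N N' F j) := by
  intro j
  fin_cases j
  · exact isLB_can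
  · exact hH
  · exact isLB_pull hPB hN
  · exact isLB_pull hPB hN'
  · exact isLB_pull hPB hF

theorem isLB_adM (hPB : IsPB n r L π H t) (hH : IsLB (n + r) H) (hN : IsLB n N) (hN' : IsLB n N') :
    IsLB (n + r) (adM n r π H N N' m e f) :=
  isLB_mul (isLB_pow isLB_can m) (isLB_mul (isLB_mul (isLB_pow hH e) (isLB_pull hPB hN))
    (isLB_pow (isLB_mul (isLB_pow hH f) (isLB_pull hPB hN')) m))

/-- semiampleness after the twist -/
theorem sa_adj (hGE : GabEff) (hn : 1 ≤ n) (hr : 1 ≤ r)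
    {w : Chart n Z → Cm n → Matrix (Fin n) (Fin n) ℂ} (hw : IsKahler w) (hR : NonposHSC w)
    (hL : ∀ j, IsLB n (L j)) (hN : IsLB n N)
    (hH : IsLB (n + r) H) (hPB : IsPB n r L π H t) (hm : 1 ≤ m) (he : m * (r + 1) ≤ e)
    (hs : IsSec (n + r) ((H.pow e).mul (pull π N)) s)
    (h0 : ∃ x, NZ ((H.pow e).mul (pull π N)) s x)
    (hk : Klt (n + r) m ((H.pow e).mul (pull π N)) s)
    (hN' : IsLB n N') (hF : IsLB n F) (hk1 : 1 ≤ k)
    (hM : ∀ a, Nef w (Ma n N' F L f k a)) {c₀ k₁ m₂ : ℕ} (hm₂ : 1 ≤ m₂) {V : Fin (r + 1) → ℕ}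
    (hV : ∑ j, V j = e * k₁ + f * k * m₂) {A₀ : Bd Z} (hA₀ : IsLB n A₀)
    (R₀ : Re (Ev n N N' F L) A₀ (ex c₀ k₁ (k * m₂) m₂ V)) {u₀ : A₀.ι → Z → ℂ}
    (hu₀ : IsSec n A₀ u₀) (hu₀0 : ∃ x, NZ A₀ u₀ x) :
    Semiample (n + r) (adj n r π H (N2 N N' F m k) (m * k) (e * k + m * (f * k))) := by
  have hN2 : IsLB n (N2 N N' F m k) :=
    isLB_mul (isLB_pow hN k) (isLB_pow (isLB_mul (isLB_pow hN' k) hF) m)
  have h1 : m * k * (r + 1) ≤ e * k + m * (f * k) := by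
    have h2 : m * k * (r + 1) = m * (r + 1) * k := by ring
    rw [h2]
    exact (Nat.mul_le_mul_right k he).trans (Nat.le_add_right _ _)
  exact semiample_of_va Vale.Agent.P285.H231.PB.rowSections hL hN2 hH hPB h1 fun a =>
    vertex hGE hn hr hw hR hL hN hH hPB hm he hs h0 hk hN' hF hk1 hM hm₂ hV hA₀ R₀ hu₀ hu₀0 a

/-- the numerical statement -/
theorem num_of_sa (hPB : IsPB n r L π H t) (hH : IsLB (n + r) H) (hN : IsLB n N)
    (hN' : IsLB n N') (hF : IsLB n F) (hk1 : 1 ≤ k)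
    (hflat : ∀ κ : ℕ, Flat (n + r) (((pull π F).pow m).pow κ))
    (h : Semiample (n + r) (adj n r π H (N2 N N' F m k) (m * k) (e * k + m * (f * k)))) :
    NumSemiample (n + r) (adM n r π H N N' m e f) := by
  obtain ⟨κ, hκ, h⟩ := h
  have hN2 : IsLB n (N2 N N' F m k) :=
    isLB_mul (isLB_pow hN k) (isLB_pow (isLB_mul (isLB_pow hN' k) hF) m)
  have hA : IsLB (n + r) ((adj n r π H (N2 N N' F m k) (m * k) (e * k + m * (f * k))).pow κ) :=
    isLB_pow (isLB_mul (isLB_pow isLB_can _) (isLB_mul (isLB_pow hH _) (isLB_pull hPB hN2))) κ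
  have hFX : IsLB (n + r) (((pull π F).pow m).pow κ) := isLB_pow (isLB_pow (isLB_pull hPB hF) m) κ
  have hB : IsLB (n + r) (((adM n r π H N N' m e f).pow (k * κ)).mul (((pull π F).pow m).pow κ)) :=
    isLB_mul (isLB_pow (isLB_adM hPB hH hN hN') _) hFX
  refine ⟨k * κ, Nat.mul_pos hk1 hκ, ((pull π F).pow m).pow κ, hFX, hflat κ, fun x => ?_⟩
  obtain ⟨v, hv, hx⟩ := h x
  have R₁ := Xp (Xadj (n := n) (r := r) π H N N' F m k (m * k) (e * k + m * (f * k))) κ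
  have R₂ := Xm (Xp (XadM (n := n) (r := r) π H N N' F m e f) (k * κ))
    (Xp (Xp (XF (n := n) (r := r) π H N N' F) m) κ)
  obtain ⟨v', hv', h'⟩ := Re.sec (isLB_Ex5 hPB hH hN hN' hF) hA hB R₁
    (Xs R₂ (by ring) (by ring) (by ring) (by ring) (by ring)) hv
  exact ⟨v', hv', h' x hx⟩

/-- without a twist -/
theorem sa_of_sa (hPB : IsPB n r L π H t) (hH : IsLB (n + r) H) (hN : IsLB n N)
    (hN' : IsLB n N')
    (h : Semiample (n + r) (adj n r π H (N2 N N' (one Z) m 1) (m * 1) (e * 1 + m * (f * 1)))) :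
    Semiample (n + r) (adM n r π H N N' m e f) := by
  have hN2 : IsLB n (N2 N N' (one Z) m 1) :=
    isLB_mul (isLB_pow hN 1) (isLB_pow (isLB_mul (isLB_pow hN' 1) isLB_one) m)
  have hA : IsLB (n + r) (adj n r π H (N2 N N' (one Z) m 1) (m * 1) (e * 1 + m * (f * 1))) :=
    isLB_mul (isLB_pow isLB_can _) (isLB_mul (isLB_pow hH _) (isLB_pull hPB hN2))
  have R₁ := Xadj (n := n) (r := r) π H N N' (one Z) m 1 (m * 1) (e * 1 + m * (f * 1))
  have R₂ := Xone (XadM (n := n) (r := r) π H N N' (one Z) m e f) m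
  exact Re.semiample (isLB_Ex5 hPB hH hN hN' isLB_one) hA (isLB_adM hPB hH hN hN')
    (Xs R₁ (by ring) (by ring) (by ring) (by ring) (by ring)) R₂ h

/-- a nonzero coefficient of a section on `X` -/
theorem exists_coeff (hr : 1 ≤ r) (hL : ∀ j, IsLB n (L j)) (hN : IsLB n N)
    (hH : IsLB (n + r) H) (hPB : IsPB n r L π H t)
    (hs : IsSec (n + r) ((H.pow e).mul (pull π N)) s)
    (h0 : ∃ x, NZ ((H.pow e).mul (pull π N)) s x) :
    ∃ (V : Fin (r + 1) → ℕ) (c : N.ι × ((j : Fin (r + 1)) → (L j).ι) → Z → ℂ), ∑ j, V j = e ∧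
      IsSec n (mon N L V) c ∧ ∃ x, NZ (mon N L V) c x := by
  obtain ⟨c, hc, hsc⟩ := Vale.Agent.P285.H776.PB.rowExpand n r hr Z X L N π H t hL hN hH hPB e s hs
  by_contra hcon
  obtain ⟨x, hx⟩ := h0
  obtain ⟨h, hh⟩ := hH.cover x
  obtain ⟨b, hb⟩ := hN.cover (π x)
  obtain ⟨i, hi⟩ := (isLB_tens hL).cover (π x)
  refine hx (h, b) ⟨hh, hb⟩ ?_
  refine (hsc h b i x hh hb hi).trans ?_
  refine Finset.sum_eq_zero fun χ _ => ?_
  have h1 : ¬ NZ (mon N L fun j => (χ.1 j : ℕ)) (c χ) (π x) := fun h2 =>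
    hcon ⟨fun j => (χ.1 j : ℕ), c χ, χ.2, hc χ, π x, h2⟩
  rw [nz_iff (isLB_mon hN hL _) (hc χ) (i := (b, i)) ⟨hb, hi⟩, not_not] at h1
  exact mul_eq_zero_of_left h1 _

/-- if a multiple of `B + M` is effective -/
theorem eff_case (hGE : GabEff) (hn : 1 ≤ n) (hr : 1 ≤ r)
    {w : Chart n Z → Cm n → Matrix (Fin n) (Fin n) ℂ} (hw : IsKahler w) (hR : NonposHSC w)
    (hL : ∀ j, IsLB n (L j)) (hN : IsLB n N)
    (hH : IsLB (n + r) H) (hPB : IsPB n r L π H t) (hm : 1 ≤ m) (he : m * (r + 1) ≤ e)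
    (hs : IsSec (n + r) ((H.pow e).mul (pull π N)) s)
    (h0 : ∃ x, NZ ((H.pow e).mul (pull π N)) s x)
    (hk : Klt (n + r) m ((H.pow e).mul (pull π N)) s)
    (hN' : IsLB n N') (hM : ∀ a, Nef w (Ma n N' (one Z) L f 1 a))
    {κ : ℕ} (hκ : 1 ≤ κ) {v : _ → X → ℂ}
    (hv : IsSec (n + r) ((((H.pow e).mul (pull π N)).mul
      (((H.pow f).mul (pull π N')).pow m)).pow κ) v)
    (hv0 : ∃ x, NZ ((((H.pow e).mul (pull π N)).mul
      (((H.pow f).mul (pull π N')).pow m)).pow κ) v x) :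
    Semiample (n + r) (adM n r π H N N' m e f) := by
  have hE := isLB_Ex5 hPB hH hN hN' (isLB_one (n := n) (Z := Z))
  have hN₃ : IsLB n ((N.mul (N'.pow m)).pow κ) := isLB_pow (isLB_mul hN (isLB_pow hN' m)) κ
  have hA : IsLB (n + r) ((((H.pow e).mul (pull π N)).mul
      (((H.pow f).mul (pull π N')).pow m)).pow κ) :=
    isLB_pow (isLB_mul (isLB_mul (isLB_pow hH e) (isLB_pull hPB hN))
      (isLB_pow (isLB_mul (isLB_pow hH f) (isLB_pull hPB hN')) m)) κ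
  have hB : IsLB (n + r) ((H.pow ((e + m * f) * κ)).mul (pull π ((N.mul (N'.pow m)).pow κ))) :=
    isLB_mul (isLB_pow hH _) (isLB_pull hPB hN₃)
  have R₁ := Xp (Xm (Xm (Xp (XH (n := n) (r := r) π H N N' (one Z)) e)
      (XN (n := n) (r := r) π H N N' (one Z)))
    (Xp (Xm (Xp (XH (n := n) (r := r) π H N N' (one Z)) f)
      (XN' (n := n) (r := r) π H N N' (one Z))) m)) κ
  have R₂ : Re (Ex5 n r π H N N' (one Z))
      ((H.pow ((e + m * f) * κ)).mul (pull π ((N.mul (N'.pow m)).pow κ))) _ :=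
    Xm (Xp (XH (n := n) (r := r) π H N N' (one Z)) ((e + m * f) * κ))
      (Xp (Xm (XN (n := n) (r := r) π H N N' (one Z))
        (Xp (XN' (n := n) (r := r) π H N N' (one Z)) m)) κ)
  obtain ⟨v', hv', h'⟩ := Re.sec hE hA hB R₁
    (Xs R₂ (by ring) (by ring) (by ring) (by ring) (by ring)) hv
  obtain ⟨x, hx⟩ := hv0
  obtain ⟨V, c, hVs, hc, hc0⟩ := exists_coeff hr hL hN₃ hH hPB hv' ⟨x, h' x hx⟩
  have hu := secMul hc (sec_one (n := n) (Z := Z) (m * κ))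
  obtain ⟨z, hz⟩ := hc0
  have hmon : IsLB n (mon ((N.mul (N'.pow m)).pow κ) L V) := isLB_mon hN₃ hL V
  have R₀ := Rm (Rm (Rp (Rm (RN (n := n) N N' (one Z) L) (Rp (RN' (n := n) N N' (one Z) L) m)) κ)
    (RT (n := n) N N' (one Z) L V)) (Rp (RF (n := n) N N' (one Z) L) (m * κ))
  refine sa_of_sa hPB hH hN hN' (sa_adj hGE hn hr hw hR hL hN hH hPB hm he hs h0 hk hN' isLB_one
    le_rfl hM (c₀ := 0) (k₁ := κ) (m₂ := m * κ) (Nat.mul_pos hm hκ) (V := V) ?_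
    (isLB_mul hmon (isLB_pow isLB_one _))
    (Rs R₀ (by ring) (by ring) (by ring) (by ring) (fun j => by simp)) hu
    ⟨z, fun i hi => mul_ne_zero (hz i.1 hi.1) one_ne_zero⟩)
  rw [hVs]
  ring

end

end Vale.Agent.P270.H766.GB
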